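import Vale.Agent.P272.F.M.Asm
import Vale.Agent.P272.F.E.Main
import Vale.Agent.P272.F.Kit.Sm

/-! P272 F/M: the block statement `nosuper`. -/

open Metric Set Filter Topology Complex MeasureTheory
open scoped ContDiff

noncomputable section

namespace Vale.Agent.P272

variable {n : ℕ} {X : Type} [TopologicalSpace X] [T2Space X] [CompactSpace X] {A : Atl n X}

theorem nosuper (hn : 1 ≤ n) [Nonempty X] (θ ρ : A.Pot) (hρ : ρ.Pos) (v : A.LV) {B : ℝ}
    (h : ∀ t, 0 < t → ∃ ψ, Atl.Sub θ.u (fun j y _ V => maR (-B + v.l j y) V) ρ t ψ) :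
    ∃ ε, 0 < ε ∧ ∀ u, A.Sm u → ∃ j x, x ∈ (A.e j).source ∧ ∀ a,
      ε * levi (ρ.u j) (A.e j x) a ≤ levi (fun y => θ.u j y + A.loc u j y) (A.e j x) a := by
  obtain ⟨P⟩ := Ms.exists_part (fun j r R h0 h1 h2 => exists_cut A j h0 h1 h2)
  exact Ms.nosuper_of hn P (fun τ hτ u hu => env hn τ hτ hu) θ ρ hρ v h

end Vale.Agent.P272
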