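import Vale.Agent.P272.F.M.Defs

/-! P272 F/M/Alg (TASK, owner helper8). Definitions in F/M/Defs, F/Defs, Defs, Stmt. Helper names end with `_Alg`.
`qm_hm`: write `a = ∑ k, ((a k).re • eb k + (a k).im • (I • eb k))`, `I • a = ∑ k, ((a k).re • (I • eb k) - (a k).im • eb k)`, expand `B` (`map_sum`, `ContinuousLinearMap.sum_apply`), `dotProduct`, `mulVec`, `re_sum`, compare term by term (`simp`, `ring`). No symmetry is needed.
`cont_hm`: `continuous_matrix`, `fun_prop`. `hm_bd`: the closed ball of the finite dimensional space of bilinear forms is compact (`isCompact_closedBall`), `Continuous.matrix_det`.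
`meas_dL`: `measurable_fderiv`, continuity. `rank_one`: `V = (EuclideanSpace.proj i0).smulRight a`, `V (eb i) = if i = i0 then a else 0`, `levi u y 0 = 0`. -/

open Metric Set Filter Topology Complex MeasureTheory Matrix
open scoped ContDiff

set_option linter.unusedSectionVars false

noncomputable section

namespace Vale.Agent.P272.Ms

variable {n : ℕ} {u w p : E n → ℝ} {y : E n} {B B' : E n →L[ℝ] E n →L[ℝ] ℝ} {M M' : Mx n}

theorem exp_Alg (B : E n →L[ℝ] E n →L[ℝ] ℝ) (v w : Fin n → E n) :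
    B (∑ i, v i) (∑ k, w k) = ∑ i, ∑ k, B (v i) (w k) := by
  rw [map_sum B, ContinuousLinearMap.sum_apply]
  exact Finset.sum_congr rfl fun i _ => map_sum _ _ _

theorem bas_Alg (a : E n) : a = ∑ k, a k • eb k := by
  ext j
  simp [eb, Pi.single_apply]

theorem dec_Alg (a : E n) : a = ∑ k, ((a k).re • eb k + (a k).im • (I • eb k)) := by
  refine (bas_Alg a).trans (Finset.sum_congr rfl fun k _ => ?_)
  rw [← Complex.coe_smul, ← Complex.coe_smul, smul_smul, ← add_smul, Complex.re_add_im]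

theorem dec2_Alg (a : E n) : I • a = ∑ k, ((a k).re • (I • eb k) - (a k).im • eb k) := by
  refine (dec_Alg (I • a)).trans (Finset.sum_congr rfl fun k _ => ?_)
  have e1 : ((I • a) k).re = -(a k).im := by simp
  have e2 : ((I • a) k).im = (a k).re := by simp
  rw [e1, e2, neg_smul, neg_add_eq_sub]

theorem qm_hm (B : E n →L[ℝ] E n →L[ℝ] ℝ) (a : E n) :
    qm (hm B) a = (B a a + B (I • a) (I • a)) / 4 := by
  have h1 := exp_Alg B (fun k => (a k).re • eb k + (a k).im • (I • eb k))
    (fun k => (a k).re • eb k + (a k).im • (I • eb k))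
  have h2 := exp_Alg B (fun k => (a k).re • (I • eb k) - (a k).im • eb k)
    (fun k => (a k).re • (I • eb k) - (a k).im • eb k)
  rw [← dec_Alg] at h1
  rw [← dec2_Alg] at h2
  rw [h1, h2, ← Finset.sum_add_distrib, Finset.sum_div]
  simp only [qm, dotProduct, mulVec, Finset.mul_sum, Complex.re_sum]
  refine Finset.sum_congr rfl fun i _ => ?_
  rw [← Finset.sum_add_distrib, Finset.sum_div]
  refine Finset.sum_congr rfl fun k _ => ?_
  simp only [map_add, map_sub, map_smul, ContinuousLinearMap.add_apply,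
    ContinuousLinearMap.sub_apply, ContinuousLinearMap.smul_apply, smul_eq_mul, hm, Matrix.of_apply,
    Pi.star_apply]
  generalize B (eb i) (eb k) = b1
  generalize B (I • eb i) (I • eb k) = b2
  generalize B (eb i) (I • eb k) = b3
  generalize B (I • eb i) (eb k) = b4
  simp
  ring

theorem qm_LM (u : E n → ℝ) (y a : E n) : qm (LM u y) a = levi u y a := qm_hm _ _

theorem qm_add (M M' : Mx n) (a : E n) : qm (M + M') a = qm M a + qm M' a := by
  simp only [qm, add_mulVec, dotProduct_add, Complex.add_re]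

theorem hm_add (B B' : E n →L[ℝ] E n →L[ℝ] ℝ) : hm (B + B') = hm B + hm B' := by
  ext i k
  simp only [hm, Matrix.of_apply, Matrix.add_apply, ContinuousLinearMap.add_apply]
  push_cast
  ring

theorem hm_zero : hm (0 : E n →L[ℝ] E n →L[ℝ] ℝ) = 0 := by
  ext i k
  simp [hm]

theorem hm_herm (h : ∀ a b, B a b = B b a) : (hm B).IsHermitian := by
  ext i k
  simp only [hm, Matrix.of_apply, Matrix.conjTranspose_apply]
  rw [h (eb k) (eb i), h (I • eb k) (I • eb i), h (eb k) (I • eb i), h (I • eb k) (eb i)]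
  apply Complex.ext <;> simp

theorem cont_hm : Continuous (hm (n := n)) := by
  refine continuous_matrix fun i k => ?_
  simp only [hm, Matrix.of_apply]
  fun_prop

theorem cdet_Alg : Continuous fun B : E n →L[ℝ] E n →L[ℝ] ℝ => (hm B).det.re :=
  Complex.continuous_re.comp cont_hm.matrix_det

theorem ent_Alg {C : ℝ} (hB : ‖B‖ ≤ C) (i k : Fin n) : ‖hm B i k‖ ≤ C := by
  have h1 : ∀ j : Fin n, ‖(eb j : E n)‖ = 1 := fun j => by simp [eb]
  have h2 : ∀ j : Fin n, ‖(I • eb j : E n)‖ = 1 := fun j => by rw [norm_smul, h1, norm_I, mul_one]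
  have h3 : ∀ a b : E n, ‖a‖ = 1 → ‖b‖ = 1 → |B a b| ≤ C := fun a b ha hb => by
    have h := B.le_opNorm₂ a b
    rw [ha, hb, mul_one, mul_one, Real.norm_eq_abs] at h
    exact h.trans hB
  have a1 := h3 _ _ (h1 i) (h1 k)
  have a2 := h3 _ _ (h2 i) (h2 k)
  have a3 := h3 _ _ (h1 i) (h2 k)
  have a4 := h3 _ _ (h2 i) (h1 k)
  simp only [hm, Matrix.of_apply]
  rw [norm_div, div_le_iff₀ (by norm_num)]
  refine (norm_sub_le _ _).trans ?_
  rw [norm_mul, norm_I, one_mul, Complex.norm_real, Complex.norm_real, Real.norm_eq_abs,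
    Real.norm_eq_abs]
  have b1 := abs_add_le (B (eb i) (eb k)) (B (I • eb i) (I • eb k))
  have b2 := abs_sub (B (eb i) (I • eb k)) (B (I • eb i) (eb k))
  have e : ‖(4 : ℂ)‖ = 4 := by simp
  rw [e]
  linarith

theorem hm_bd (n : ℕ) (C : ℝ) :
    ∃ K : ℝ, ∀ B : E n →L[ℝ] E n →L[ℝ] ℝ, ‖B‖ ≤ C → |(hm B).det.re| ≤ K :=
  ⟨_, fun _ hB => (Complex.abs_re_le_norm _).trans
    (Matrix.det_le (abv := IsAbsoluteValue.toAbsoluteValue (fun z : ℂ => ‖z‖)) (ent_Alg hB))⟩

theorem meas_dL (u : E n → ℝ) : Measurable (dL u) :=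
  (cdet_Alg (n := n)).measurable.comp (measurable_fderiv ℝ (fderiv ℝ u))

theorem rank_one (hn : 1 ≤ n) (a : E n) : ∃ V : L n, ∀ u y, trL u y V = levi u y a := by
  let i0 : Fin n := ⟨0, hn⟩
  refine ⟨(EuclideanSpace.proj i0 : E n →L[ℂ] ℂ).smulRight a, fun u y => ?_⟩
  rw [trL, Finset.sum_eq_single i0]
  · simp [eb]
  · intro i _ hi
    simp [eb, hi.symm, levi]
  · intro h
    exact absurd (Finset.mem_univ _) h

end Vale.Agent.P272.Ms
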