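import Vale.Agent.P272.F.M.Defs
import Vale.Agent.P272.Lin

/-! P272 F/M/Det2 (TASK, owner helper8). Definitions in F/M/Defs, F/Defs, Defs, Stmt. Helper names end with `_Det2`.
First: Hermitian and `0 < qm M a` for `a ≠ 0` gives `M.PosDef` (`open scoped ComplexOrder`; the form of a Hermitian matrix is real), the same for `PosSemidef`. A positive definite `G` has an invertible `S` with `Sᴴ * G * S = 1` (spectral theorem: `S = U * diagonal (1 / √λ)`, or `CFC.sqrt`, or `Matrix.PosDef` + `LDL`).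
`det_ge`: `V = Matrix.toEuclideanCLM S` (or `LinearMap.toContinuousLinearMap (Matrix.toLpLin 2 2 S)`), `qm M (V (eb i)) = (Sᴴ * M * S) i i = 1`, `‖det S‖ ^ 2 * det M = 1`, so `n * (e^l / det M) ^ (1 / n) ≤ n`.
`det_gain`: `A' = Sᴴ * A * S` is positive semidefinite with eigenvalues `λ i ≥ 0`; with `b = S⁻¹ a ≠ 0`, `qm A' b ≤ s * |b|^2`, so some `λ i0 ≤ s` (otherwise `A' - s` is positive definite by the spectral theorem);
`det (A' + 1) = ∏ (λ i + 1) ≥ (1 + 1 / s) * ∏ λ i` (`Finset.mul_prod_erase`, `λ i0 + 1 ≥ (1 + 1 / s) * λ i0`); multiply by `det G > 0`. -/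

open Metric Set Filter Topology Complex MeasureTheory Matrix
open scoped ContDiff

set_option linter.unusedSectionVars false

noncomputable section

namespace Vale.Agent.P272.Ms

variable {n : ℕ} {u w p : E n → ℝ} {y : E n} {B B' : E n →L[ℝ] E n →L[ℝ] ℝ} {M M' : Mx n}

/-- The action of a matrix. -/
def act_Det2 (S : Mx n) : L n := Matrix.toEuclideanCLM (n := Fin n) (𝕜 := ℂ) S

theorem conj_Det2 (M S : Mx n) (a : E n) : qm M (act_Det2 S a) = qm (Sᴴ * M * S) a := by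
  have h1 : (act_Det2 S a).ofLp = S *ᵥ a.ofLp := rfl
  rw [qm, qm, h1, star_mulVec, ← dotProduct_mulVec, mulVec_mulVec, mulVec_mulVec]

theorem qd_Det2 (d : Fin n → ℝ) (a : E n) :
    qm (Matrix.diagonal fun i => (d i : ℂ)) a = ∑ i, d i * ‖a i‖ ^ 2 := by
  rw [qm, dotProduct, Complex.re_sum]
  refine Finset.sum_congr rfl fun i _ => ?_
  rw [mulVec_diagonal, Pi.star_apply, mul_left_comm, Complex.star_def, Complex.conj_mul',
    ← Complex.ofReal_pow, ← Complex.ofReal_mul, Complex.ofReal_re]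

theorem qe_Det2 (d : Fin n → ℝ) (i : Fin n) : qm (Matrix.diagonal fun i => (d i : ℂ)) (eb i) = d i := by
  rw [qd_Det2, Finset.sum_eq_single i]
  · simp [eb]
  · intro j _ hj
    simp [eb, hj]
  · simp

theorem one_Det2 : (1 : Mx n) = Matrix.diagonal fun _ => ((1 : ℝ) : ℂ) := by
  rw [Complex.ofReal_one, diagonal_one]

theorem diag_Det2 (hM : M.IsHermitian) : ∃ (U : Mx n) (d : Fin n → ℝ), Uᴴ * U = 1 ∧
    Uᴴ * M * U = Matrix.diagonal fun i => (d i : ℂ) := by
  refine ⟨hM.eigenvectorUnitary, hM.eigenvalues, Unitary.coe_star_mul_self _, ?_⟩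
  have h := hM.conjStarAlgAut_star_eigenvectorUnitary
  rw [Unitary.conjStarAlgAut_star_apply] at h
  exact h

theorem norm_Det2 (hM : M.IsHermitian) (hp : ∀ a, a ≠ 0 → 0 < qm M a) :
    ∃ S : Mx n, Sᴴ * M * S = 1 := by
  obtain ⟨U, d, h1, h2⟩ := diag_Det2 hM
  have h3 : ∀ i, 0 < d i := fun i => by
    rw [← qe_Det2 d i, ← h2, ← conj_Det2]
    refine hp _ fun h0 => ?_
    have h4 := conj_Det2 1 U (eb i)
    rw [h0, Matrix.mul_one, h1, one_Det2, qe_Det2] at h4
    simp [qm] at h4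
  refine ⟨U * Matrix.diagonal fun i => (((√(d i))⁻¹ : ℝ) : ℂ), ?_⟩
  rw [conjTranspose_mul, Matrix.mul_assoc, Matrix.mul_assoc, ← Matrix.mul_assoc M,
    ← Matrix.mul_assoc Uᴴ, ← Matrix.mul_assoc Uᴴ, h2, diagonal_conjTranspose,
    diagonal_mul_diagonal, diagonal_mul_diagonal, ← diagonal_one]
  congr 1
  funext i
  rw [Pi.star_apply, Complex.star_def, Complex.conj_ofReal, ← Complex.ofReal_mul,
    ← Complex.ofReal_mul, ← Complex.ofReal_one]
  congr 1
  have h5 : √(d i) ≠ 0 := (Real.sqrt_pos.2 (h3 i)).ne'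
  have h6 : √(d i) * √(d i) = d i := Real.mul_self_sqrt (h3 i).le
  field_simp
  rw [sq, h6]

theorem det_Det2 {S : Mx n} {d : Fin n → ℝ} (h : Sᴴ * M * S = Matrix.diagonal fun i => (d i : ℂ)) :
    ‖S.det‖ ^ 2 * M.det.re = ∏ i, d i := by
  have h1 := congrArg Matrix.det h
  rw [det_mul, det_mul, det_conjTranspose, det_diagonal, mul_right_comm, Complex.star_def,
    Complex.conj_mul', ← Complex.ofReal_pow, ← Complex.ofReal_prod] at h1
  have h2 := congrArg Complex.re h1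
  rwa [Complex.re_ofReal_mul, Complex.ofReal_re] at h2

theorem adet_Det2 (S : Mx n) : (act_Det2 S).det = S.det := by
  rw [lin_det]
  congr 1
  ext i j
  have h1 : (act_Det2 S (eb j)).ofLp = S *ᵥ (eb j).ofLp := rfl
  rw [Matrix.of_apply, h1]
  simp [eb]

theorem det_ge (hn : 1 ≤ n) (hM : M.IsHermitian) (hp : ∀ a, a ≠ 0 → 0 < qm M a) {l : ℝ}
    (h : ∀ V : L n, maR l V ≤ ∑ i, qm M (V (eb i))) : Real.exp l ≤ M.det.re := by
  obtain ⟨S, hS⟩ := norm_Det2 hM hp
  have h1 := det_Det2 (hS.trans one_Det2)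
  rw [Finset.prod_const_one] at h1
  have h2 := h (act_Det2 S)
  have h3 : ∀ i, qm M (act_Det2 S (eb i)) = 1 := fun i => by
    rw [conj_Det2, hS, one_Det2, qe_Det2]
  simp only [h3, Finset.sum_const, Finset.card_univ, Fintype.card_fin, nsmul_eq_mul] at h2
  rw [maR, adet_Det2] at h2
  have n0 : (0 : ℝ) < n := by exact_mod_cast hn
  have h4 := le_of_mul_le_mul_left h2 n0
  have h5 : Real.exp l * ‖S.det‖ ^ 2 ≤ 1 := by
    by_contra h6
    exact absurd h4 (not_le.2 (Real.one_lt_rpow (not_le.1 h6) (by positivity)))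
  have h7 : 0 < ‖S.det‖ ^ 2 := by
    refine lt_of_le_of_ne (by positivity) fun h0 => ?_
    rw [← h0, zero_mul] at h1
    exact zero_ne_one h1
  refine le_of_mul_le_mul_left ?_ h7
  linarith

theorem det_gain (hM : M.IsHermitian) (hM' : M'.IsHermitian) (h0 : ∀ a, 0 ≤ qm M a)
    (hp : ∀ a, a ≠ 0 → 0 < qm M' a) {s : ℝ} (hs : 0 < s) {a : E n} (ha : a ≠ 0)
    (h : qm M a ≤ s * qm M' a) : (1 + 1 / s) * M.det.re ≤ (M + M').det.re := by
  obtain ⟨S, hS⟩ := norm_Det2 hM' hp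
  obtain ⟨U, d, h1, h2⟩ := diag_Det2 (Matrix.isHermitian_conjTranspose_mul_mul S hM)
  have t1 : (S * U)ᴴ * M' * (S * U) = Matrix.diagonal fun _ => ((1 : ℝ) : ℂ) := by
    rw [← one_Det2, ← h1, conjTranspose_mul]
    calc Uᴴ * Sᴴ * M' * (S * U) = Uᴴ * (Sᴴ * M' * S) * U := by simp only [Matrix.mul_assoc]
      _ = Uᴴ * U := by rw [hS, Matrix.mul_one]
  have t2 : (S * U)ᴴ * M * (S * U) = Matrix.diagonal fun i => (d i : ℂ) := by
    rw [← h2, conjTranspose_mul]
    simp only [Matrix.mul_assoc]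
  generalize S * U = T at t1 t2
  have t3 : Tᴴ * (M + M') * T = Matrix.diagonal fun i => ((d i + 1 : ℝ) : ℂ) := by
    rw [Matrix.mul_add, Matrix.add_mul, t1, t2, diagonal_add]
    simp only [Complex.ofReal_add]
  have d1 := det_Det2 t1
  have d2 := det_Det2 t2
  have d3 := det_Det2 t3
  rw [Finset.prod_const_one] at d1
  have h7 : 0 < ‖T.det‖ ^ 2 := by
    refine lt_of_le_of_ne (by positivity) fun h0 => ?_
    rw [← h0, zero_mul] at d1
    exact zero_ne_one d1
  have h8 : IsUnit T.det := isUnit_iff_ne_zero.2 fun h0 => by simp [h0] at h7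
  have d0 : ∀ i, 0 ≤ d i := fun i => by
    rw [← qe_Det2 d i, ← t2, ← conj_Det2]
    exact h0 _
  have hb : act_Det2 T (act_Det2 T⁻¹ a) = a := by
    rw [← mul_apply_eq_comp, act_Det2, act_Det2, ← map_mul, Matrix.mul_nonsing_inv _ h8, map_one]
    rfl
  have hpa := hp a ha
  rw [← hb, conj_Det2, t1, qd_Det2] at hpa
  rw [← hb, conj_Det2 M T, conj_Det2 M' T, t1, t2, qd_Det2, qd_Det2, Finset.mul_sum] at h
  generalize act_Det2 T⁻¹ a = b at hpa h
  obtain ⟨i, hi⟩ : ∃ i, d i ≤ s := by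
    by_contra h9
    have h10 : ∀ i, s < d i := fun i => not_le.1 fun h => h9 ⟨i, h⟩
    obtain ⟨j, -, hj⟩ := Finset.exists_lt_of_sum_lt (f := fun _ => (0 : ℝ))
      (g := fun i => 1 * ‖b i‖ ^ 2) (s := Finset.univ) (by rwa [Finset.sum_const_zero])
    refine absurd h (not_le.2 (Finset.sum_lt_sum (fun i _ => ?_) ⟨j, Finset.mem_univ j, ?_⟩))
    · rw [one_mul]
      exact mul_le_mul_of_nonneg_right (h10 i).le (sq_nonneg _)
    · rw [one_mul] at hj ⊢
      exact mul_lt_mul_of_pos_right (h10 j) hj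
  refine le_of_mul_le_mul_left ?_ h7
  rw [mul_left_comm, d2, d3, ← Finset.mul_prod_erase _ _ (Finset.mem_univ i),
    ← Finset.mul_prod_erase _ (fun i => d i + 1) (Finset.mem_univ i), ← mul_assoc]
  refine mul_le_mul ?_ (Finset.prod_le_prod (fun j _ => d0 j) fun j _ => by linarith)
    (Finset.prod_nonneg fun j _ => d0 j) (by linarith [d0 i])
  have h11 : 1 / s * d i ≤ 1 := by
    rw [one_div, inv_mul_le_iff₀ hs, mul_one]
    exact hi
  linarith

end Vale.Agent.P272.Ms
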