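import Vale.Agent.P272.F.M.C11
import Vale.Agent.P272.F.M.Det2

/-! P272 F/M/Bnd (TASK, owner helper8). Definitions in F/M/Defs, F/Defs, Defs, Stmt. Helper names end with `_Bnd`.
`mass_up`: on the compact set `Icc 0 3 ×ˢ closedBall 0 1` the function `(s, y) ↦ (LM (θ.u j) y + s • LM (ρ.u j) y).det.re` is continuous (`contOn_LM`, `A.tgt`), so bounded by `K j`; `LM_add`, `LM_cmul`, `D2.of_sm`; `|loc (P.χ j) j y| ≤ 1`; `norm_setIntegral_le_of_norm_le_const`.
`mass_low`: `c = ∑ j, ∫ y in ball 0 1, loc (P.χ j) j y * exp (-B + v.l j y)`. The integrands are continuous on `closedBall 0 1` and nonnegative. Some `P.χ j x` is positive, then `A.In j P.r x` (`P.supp`), so the integrand is positive near `A.e j x` in the ball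
(`setIntegral_pos_iff_support_of_nonneg_ae`, open sets have positive measure). Pointwise `det_ge` with `LM_herm`, `qm_LM`; `setIntegral_mono_on`, `C11.int`, `C11.of_sm`. -/

open Metric Set Filter Topology Complex MeasureTheory Matrix
open scoped ContDiff

set_option linter.unusedSectionVars false

noncomputable section

namespace Vale.Agent.P272.Ms

variable {n : ℕ} {X : Type} [TopologicalSpace X] {A : Atl n X} {φ ψ w : X → ℝ} {j k : Fin A.N}
  {x : X}

theorem sub_Bnd (A : Atl n X) (j : Fin A.N) : closedBall (0 : E n) 1 ⊆ (A.e j).target :=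
  (closedBall_subset_closedBall (by norm_num)).trans (A.tgt j)

theorem abs_Bnd (P : Part A) (j : Fin A.N) (x : X) : |P.χ j x| ≤ 1 := by
  rw [abs_of_nonneg (P.nn j x), ← P.sum x]
  exact Finset.single_le_sum (f := fun i => P.χ i x) (fun i _ => P.nn i x) (Finset.mem_univ j)

theorem at_Bnd {u : E n → ℝ} (hu : ContDiffOn ℝ ∞ u (A.e j).target) {y : E n}
    (hy : y ∈ ball (0 : E n) 1) : ContDiffAt ℝ ∞ u y :=
  hu.contDiffAt ((A.e j).open_target.mem_nhds (sub_Bnd A j (ball_subset_closedBall hy)))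

theorem bd_Bnd (θ ρ : A.Pot) (j : Fin A.N) : ∃ K : ℝ, ∀ s ∈ Icc (0 : ℝ) 3,
    ∀ y ∈ ball (0 : E n) 1, |dL (fun y => θ.u j y + s * ρ.u j y) y| ≤ K := by
  have h0 : ∀ τ : A.Pot, ContinuousOn (fun p : ℝ × E n => LM (τ.u j) p.2)
      (Icc (0 : ℝ) 3 ×ˢ closedBall (0 : E n) 1) := fun τ =>
    (contOn_LM (A.e j).open_target (τ.sm j)).comp continuous_snd.continuousOn
      fun p hp => sub_Bnd A j hp.2
  have h1 : Continuous fun M : Mx n => M.det.re := continuous_re.comp continuous_id.matrix_det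
  have h2 : ContinuousOn (fun p : ℝ × E n => (LM (θ.u j) p.2 + (p.1 : ℂ) • LM (ρ.u j) p.2).det.re)
      (Icc (0 : ℝ) 3 ×ˢ closedBall (0 : E n) 1) :=
    h1.comp_continuousOn
      ((h0 θ).add ((continuous_ofReal.comp continuous_fst).continuousOn.smul (h0 ρ)))
  obtain ⟨K, hK⟩ := (isCompact_Icc.prod (isCompact_closedBall _ _)).exists_bound_of_continuousOn h2
  refine ⟨K, fun s hs y hy => ?_⟩
  have d1 := D2.of_sm (at_Bnd (θ.sm j) hy)
  have d2 := D2.of_sm (at_Bnd (ρ.sm j) hy)
  rw [dL, LM_add d1 (d2.cmul s), LM_cmul d2]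
  exact hK (s, y) ⟨hs, ball_subset_closedBall hy⟩

theorem mass_up (P : Part A) (θ ρ : A.Pot) : ∃ C : ℝ, ∀ s ∈ Icc (0 : ℝ) 3,
    P.mass (fun j y => θ.u j y + s * ρ.u j y) ≤ C := by
  choose K hK using bd_Bnd θ ρ
  refine ⟨∑ j, K j * volume.real (ball (0 : E n) 1), fun s hs => Finset.sum_le_sum fun j _ => ?_⟩
  refine (Real.le_norm_self _).trans
    (norm_setIntegral_le_of_norm_le_const measure_ball_lt_top fun y hy => ?_)
  rw [Real.norm_eq_abs, abs_mul]
  exact (mul_le_of_le_one_left (abs_nonneg _) (abs_Bnd P j _)).trans (hK j s hs y hy)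

theorem mass_low (hn : 1 ≤ n) [Nonempty X] (P : Part A) (v : A.LV) (B : ℝ) : ∃ c : ℝ, 0 < c ∧
    ∀ τ : A.Pot, τ.Pos → (∀ j x V, x ∈ (A.e j).source →
      maR (-B + v.l j (A.e j x)) V ≤ trL (τ.u j) (A.e j x) V) → c ≤ P.mass τ.u := by
  have hc : ∀ j, ContinuousOn (fun y => A.loc (P.χ j) j y * Real.exp (-B + v.l j y))
      (A.e j).target := fun j =>
    (P.sm j j).continuousOn.mul (continuousOn_const.add (v.sm j).continuousOn).rexp
  have hi : ∀ j, IntegrableOn (fun y => A.loc (P.χ j) j y * Real.exp (-B + v.l j y))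
      (ball (0 : E n) 1) := fun j =>
    (((hc j).mono (sub_Bnd A j)).integrableOn_compact (isCompact_closedBall _ _)).mono_set
      ball_subset_closedBall
  have hn0 : ∀ j y, 0 ≤ A.loc (P.χ j) j y * Real.exp (-B + v.l j y) := fun j y =>
    mul_nonneg (P.nn j _) (Real.exp_pos _).le
  refine ⟨∑ j, ∫ y in ball (0 : E n) 1, A.loc (P.χ j) j y * Real.exp (-B + v.l j y), ?_,
    fun τ hτ h => Finset.sum_le_sum fun j _ => ?_⟩
  · obtain ⟨x⟩ := ‹Nonempty X›
    obtain ⟨j, -, hj⟩ := Finset.exists_ne_zero_of_sum_ne_zero ((P.sum x).trans_ne one_ne_zero)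
    have hin : A.In j P.r x := by
      by_contra hx
      exact hj (P.supp j x hx).self_of_nhds
    have hy : A.e j x ∈ ball (0 : E n) 1 := mem_ball_zero_iff.2 (hin.2.trans_lt P.r1)
    refine Finset.sum_pos' (fun i _ => integral_nonneg (hn0 i)) ⟨j, Finset.mem_univ j, ?_⟩
    rw [setIntegral_pos_iff_support_of_nonneg_ae (Eventually.of_forall (hn0 j)) (hi j)]
    refine Measure.measure_pos_of_mem_nhds _ (x := A.e j x)
      (inter_mem ?_ (isOpen_ball.mem_nhds hy))
    refine ((hc j).continuousAt ((A.e j).open_target.mem_nhds ((A.e j).map_source hin.1))).eventually_ne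
      (mul_ne_zero ?_ (Real.exp_ne_zero _))
    rwa [Atl.loc, (A.e j).left_inv hin.1]
  · refine setIntegral_mono_on (hi j)
      ((C11.of_sm (A.e j).open_target (sub_Bnd A j) (τ.sm j)).int
        ((P.sm j j).continuousOn.mono (ball_subset_closedBall.trans (sub_Bnd A j)))
        fun y _ => abs_Bnd P j _) measurableSet_ball fun y hy => ?_
    have ht := sub_Bnd A j (ball_subset_closedBall hy)
    refine mul_le_mul_of_nonneg_left (det_ge hn (LM_herm (D2.of_sm (at_Bnd (τ.sm j) hy)).1)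
      (fun a ha => ?_) fun V => ?_) (P.nn j _)
    · rw [qm_LM]
      exact hτ j y ht a ha
    · have := h j ((A.e j).symm y) V ((A.e j).map_target ht)
      rw [(A.e j).right_inv ht] at this
      simpa only [qm_LM, trL] using this

end Vale.Agent.P272.Ms
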