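import Vale.Agent.P272.F.M.Defs

/-! P272 F/M/Part (TASK, owner helper8). Definitions in F/M/Defs, F/Defs, Defs, Stmt. Helper names end with `_Part`.
The open sets `{x ∈ source j | ‖A.e j x‖ < 1 - 1 / (m + 2)}` cover `X` (`A.cov`); by compactness (`IsCompact.elim_finite_subcover` or `elim_directed_cover`) there is `0 < r₀ < 1` such that every `x` has `A.In j r₀ x` for some `j`.
Take `r = (r₀ + 1) / 2`, cutoffs `c j` from `hcut`, `χ j = c j / ∑ i, c i` (the sum is at least one; `ContDiffOn.div`, `ContDiffOn.sum`). -/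

open Metric Set Filter Topology Complex MeasureTheory Matrix
open scoped ContDiff

set_option linter.unusedSectionVars false

noncomputable section

namespace Vale.Agent.P272.Ms

variable {n : ℕ} {X : Type} [TopologicalSpace X] {A : Atl n X} {φ ψ w : X → ℝ} {j k : Fin A.N}
  {x : X}

theorem rad_Part [CompactSpace X] (A : Atl n X) :
    ∃ r : ℝ, 0 < r ∧ r < 1 ∧ ∀ x, ∃ j, A.In j r x := by
  obtain ⟨U, hU⟩ : ∃ U : ℕ → Set X, ∀ m, U m =
      ⋃ j, (A.e j).source ∩ A.e j ⁻¹' ball 0 (1 - 1 / ((m : ℝ) + 1) / 2) := ⟨_, fun _ => rfl⟩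
  have hop : ∀ m, IsOpen (U m) := fun m => by
    rw [hU]
    exact isOpen_iUnion fun j => (A.e j).isOpen_inter_preimage isOpen_ball
  have hmono : Monotone U := fun a b hab => by
    rw [hU, hU]
    refine iUnion_mono fun j => inter_subset_inter_right _ (preimage_mono (ball_subset_ball ?_))
    have : (1 : ℝ) / ((b : ℝ) + 1) ≤ 1 / ((a : ℝ) + 1) := Nat.one_div_le_one_div hab
    linarith
  have hcov : univ ⊆ ⋃ m, U m := fun x _ => by
    obtain ⟨j, h1, h2⟩ := A.cov x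
    obtain ⟨m, hm⟩ := exists_nat_one_div_lt (sub_pos.mpr h2)
    refine mem_iUnion.mpr ⟨m, ?_⟩
    rw [hU]
    refine mem_iUnion.mpr ⟨j, h1, mem_ball_zero_iff.mpr ?_⟩
    have : (0 : ℝ) < 1 / ((m : ℝ) + 1) := Nat.one_div_pos_of_nat
    linarith
  obtain ⟨m, hm⟩ := isCompact_univ.elim_directed_cover U hop hcov hmono.directed_le
  have h0 : (0 : ℝ) < 1 / ((m : ℝ) + 1) := Nat.one_div_pos_of_nat
  have h1 : (1 : ℝ) / ((m : ℝ) + 1) ≤ 1 := by
    rw [div_le_one (by positivity)]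
    linarith [(Nat.cast_nonneg m : (0 : ℝ) ≤ m)]
  refine ⟨1 - 1 / ((m : ℝ) + 1) / 2, by linarith, by linarith, fun x => ?_⟩
  have hx := hm (mem_univ x)
  rw [hU] at hx
  obtain ⟨j, h2, h3⟩ := mem_iUnion.mp hx
  exact ⟨j, h2, (mem_ball_zero_iff.mp h3).le⟩

theorem exists_part [CompactSpace X]
    (hcut : ∀ (j : Fin A.N) (r R : ℝ), 0 < r → r < R → R ≤ 4 → ∃ χ : X → ℝ, A.Sm χ ∧
      (∀ x, 0 ≤ χ x ∧ χ x ≤ 1) ∧ (∀ x, A.In j r x → χ x = 1) ∧
        ∀ x, ¬ A.In j R x → χ =ᶠ[𝓝 x] 0) : Nonempty (Part A) := by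
  obtain ⟨r, h0, h1, hr⟩ := rad_Part A
  choose c hsm hc hone hz using fun j =>
    hcut j r ((r + 1) / 2) h0 (by linarith) (by linarith)
  have hpos : ∀ x, 0 < ∑ i, c i x := fun x => by
    obtain ⟨j, hj⟩ := hr x
    refine lt_of_lt_of_le ?_ (Finset.single_le_sum (fun i _ => (hc i x).1) (Finset.mem_univ j))
    rw [hone j x hj]
    exact one_pos
  refine ⟨⟨fun j x => c j x / ∑ i, c i x, (r + 1) / 2, by linarith, fun j k => ?_,
    fun j x => div_nonneg (hc j x).1 (hpos x).le, fun x => ?_, fun j x hx => ?_⟩⟩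
  · exact (hsm j k).div (ContDiffOn.sum fun i _ => hsm i k) fun y _ => (hpos _).ne'
  · rw [← Finset.sum_div, div_self (hpos x).ne']
  · filter_upwards [hz j x hx] with y hy
    rw [hy, Pi.zero_apply, zero_div]

end Vale.Agent.P272.Ms
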