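import Vale.Agent.P272.F.M.Gain
import Vale.Agent.P272.F.M.Bnd
import Vale.Agent.P272.F.M.Part

/-! P272 F/M/Asm (helper8): assembly of block M from the envelope and the cutoffs. -/

open Metric Set Filter Topology Complex MeasureTheory Matrix
open scoped ContDiff

noncomputable section

namespace Vale.Agent.P272.Ms

variable {n : ℕ} {X : Type} [TopologicalSpace X] {A : Atl n X}

theorem d2_Asm {j : Fin A.N} {u : E n → ℝ} (hu : ContDiffOn ℝ ∞ u (A.e j).target) {y : E n}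
    (hy : y ∈ (A.e j).target) : D2 u y :=
  D2.of_sm (hu.contDiffAt ((A.e j).open_target.mem_nhds hy))

theorem levi0_Asm (u : E n → ℝ) (y : E n) : levi u y 0 = 0 := by simp [levi]

theorem trL_Asm {u w : E n → ℝ} {y : E n} (hu : D2 u y) (hw : D2 w y) (c : ℝ) (V : L n) :
    trL (fun z => u z + c * w z) y V = trL u y V + c * trL w y V := by
  simp only [trL, levi_add2 hu (hw.cmul c), levi_cmul hw, Finset.sum_add_distrib, Finset.mul_sum]

theorem nosuper_of (hn : 1 ≤ n) [Nonempty X] (P : Part A)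
    (henv : ∀ τ : A.Pot, τ.Pos → ∀ u, A.Sm u → ∃ (φ : X → ℝ) (C : NNReal), ∀ j,
      DifferentiableOn ℝ (A.loc φ j) (ball 0 1) ∧
      LipschitzOnWith C (fderiv ℝ (A.loc φ j)) (ball 0 1) ∧
      ∀ y ∈ ball (0 : E n) 1, DifferentiableAt ℝ (fderiv ℝ (A.loc φ j)) y →
        (∀ a, 0 ≤ levi (τ.u j) y a + levi (A.loc φ j) y a) ∧
        ((∃ a, a ≠ 0 ∧ levi (τ.u j) y a + levi (A.loc φ j) y a = 0) ∨
          ∀ a, levi (A.loc φ j) y a ≤ levi (A.loc u j) y a))
    (θ ρ : A.Pot) (hρ : ρ.Pos) (v : A.LV) {B : ℝ}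
    (h : ∀ t, 0 < t → ∃ ψ, Atl.Sub θ.u (fun j y _ V => maR (-B + v.l j y) V) ρ t ψ) :
    ∃ ε, 0 < ε ∧ ∀ u, A.Sm u → ∃ j x, x ∈ (A.e j).source ∧ ∀ a,
      ε * levi (ρ.u j) (A.e j x) a ≤ levi (fun y => θ.u j y + A.loc u j y) (A.e j x) a := by
  obtain ⟨C, hC⟩ := mass_up P θ ρ
  obtain ⟨c, hc, hlow⟩ := mass_low hn P v B
  obtain ⟨t, t0, t1, ht⟩ : ∃ t : ℝ, 0 < t ∧ t ≤ 1 ∧ C < (1 + 1 / (3 * t)) * c := by
    have h1 : 0 < |C| + 1 := by positivity
    refine ⟨min 1 (c / (3 * (|C| + 1))), by positivity, min_le_left _ _, ?_⟩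
    have h2 : 0 < min 1 (c / (3 * (|C| + 1))) := by positivity
    have h3 : min 1 (c / (3 * (|C| + 1))) * (3 * (|C| + 1)) ≤ c :=
      (le_div_iff₀ (by positivity)).1 (min_le_right _ _)
    have h4 : |C| + 1 ≤ 1 / (3 * min 1 (c / (3 * (|C| + 1)))) * c := by
      rw [one_div, inv_mul_eq_div, le_div_iff₀ (by positivity)]
      linarith
    have := le_abs_self C
    linarith
  refine ⟨t, t0, fun u hu => ?_⟩
  by_contra hne
  push Not at hne
  obtain ⟨ψ, hψ, hs⟩ := h t t0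
  obtain ⟨τ, hτ⟩ := exists_pot θ ρ hψ (2 * t)
  have h0 : A.Sm (fun _ => 0) := fun j => contDiffOn_const
  obtain ⟨τ', hτ'⟩ := exists_pot τ ρ h0 1
  obtain ⟨θ', hθ'⟩ := exists_pot θ ρ h0 (1 + 2 * t)
  have hρ0 : ∀ j, ∀ y ∈ (A.e j).target, ∀ a, 0 ≤ levi (ρ.u j) y a := fun j y hy a => by
    rcases eq_or_ne a 0 with rfl | ha
    · exact (levi0_Asm _ _).ge
    · exact (hρ j y hy a ha).le
  have hV : ∀ j x V, x ∈ (A.e j).source → maR (-B + v.l j (A.e j x)) V +
      t * trL (ρ.u j) (A.e j x) V ≤ trL (τ.u j) (A.e j x) V := fun j x V hx => by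
    have hy := (A.e j).map_source hx
    have h1 := hs j x V hx
    rw [hτ, trL_Asm ((d2_Asm (θ.sm j) hy).add (d2_Asm (hψ j) hy)) (d2_Asm (ρ.sm j) hy)]
    linarith
  have hm : ∀ (l : ℝ) (V : L n), 0 ≤ maR l V := fun l V => by unfold maR; positivity
  have hpos : τ.Pos := fun j y hy a ha => by
    obtain ⟨V, hV'⟩ := rank_one hn a
    have h1 := hV j _ V ((A.e j).map_target hy)
    rw [(A.e j).right_inv hy, hV', hV'] at h1
    have h2 := hm (-B + v.l j y) V
    have h3 := mul_pos t0 (hρ j y hy a ha)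
    linarith
  have hl : c ≤ P.mass τ.u := hlow τ hpos fun j x V hx => by
    have h1 := hV j x V hx
    have h2 : 0 ≤ trL (ρ.u j) (A.e j x) V :=
      Finset.sum_nonneg fun i _ => hρ0 j _ ((A.e j).map_source hx) _
    nlinarith
  have hd : A.Sm (fun x => u x + (-1) * ψ x) := fun j =>
    (hu j).add (contDiffOn_const.mul (hψ j))
  obtain ⟨φ, K, hφ⟩ := henv τ hpos _ hd
  have hR : Reg A φ := fun j => ⟨(hφ j).1, K, (hφ j).2.1⟩
  have hg := mass_gain P τ ρ hρ hR (s := 3 * t) (by positivity) fun j y hy hy2 => by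
    obtain ⟨g1, g2⟩ := (hφ j).2.2 y hy hy2
    have hy' : y ∈ (A.e j).target :=
      A.tgt j (ball_subset_closedBall.trans (closedBall_subset_closedBall (by norm_num)) hy)
    refine ⟨g1, ?_⟩
    rcases g2 with ⟨a, ha, g2⟩ | g2
    · exact ⟨a, ha, g2.le.trans (mul_nonneg (by positivity) (hρ0 j y hy' a))⟩
    · obtain ⟨a, ha⟩ := hne j _ ((A.e j).map_target hy')
      rw [(A.e j).right_inv hy'] at ha
      have d1 := d2_Asm (θ.sm j) hy'
      have d2 := d2_Asm (hψ j) hy'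
      have d3 := d2_Asm (ρ.sm j) hy'
      have d4 := d2_Asm (hu j) hy'
      refine ⟨a, fun e => ?_, ?_⟩
      · rw [e, levi0_Asm, levi0_Asm] at ha
        simp at ha
      · have e1 : levi (A.loc (fun x => u x + (-1) * ψ x) j) y a =
            levi (A.loc u j) y a + (-1) * levi (A.loc ψ j) y a := by
          rw [← levi_cmul d2, ← levi_add2 d4 (d2.cmul _)]
          rfl
        have e2 := g2 a
        rw [levi_add2 d1 d4] at ha
        rw [hτ, levi_add2 (d1.add d2) (d3.cmul _), levi_add2 d1 d2, levi_cmul d3]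
        linarith
  have e1 : (fun j y => τ.u j y + A.loc φ j y + ρ.u j y) =
      fun j y => τ'.u j y + A.loc φ j y := by
    funext j y
    simp only [hτ', Atl.loc]
    ring
  have e2 : τ'.u = fun j y => θ'.u j y + A.loc ψ j y := by
    funext j y
    simp only [hτ', hθ', hτ, Atl.loc]
    ring
  have e3 : θ'.u = fun j y => θ.u j y + (1 + 2 * t) * ρ.u j y := by
    funext j y
    simp only [hθ', Atl.loc]
    ring
  rw [e1, mass_inv hn P τ hR, mass_inv hn P τ' hR, e2, mass_inv hn P θ' (reg_of_sm hψ), e3] at hg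
  have h5 := hC (1 + 2 * t) ⟨by positivity, by linarith⟩
  have h6 : (1 + 1 / (3 * t)) * c ≤ (1 + 1 / (3 * t)) * P.mass τ.u :=
    mul_le_mul_of_nonneg_left hl (by positivity)
  linarith

end Vale.Agent.P272.Ms
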