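import Vale.Agent.P272.F.M.Two

/-! P272 F/M/C11 (TASK, owner helper8). Definitions in F/M/Defs, F/Defs, Defs, Stmt. Helper names end with `_C11`.
All on the unit ball. `of_sm`: `ContDiffOn.exists_lipschitzOnWith` for `fderiv u` on `closedBall 0 1`. `add`, `mul`: on the ball `fderiv` of the sum or product is given by the formula; `fderiv u` is bounded on the ball (Lipschitz), so `u` is Lipschitz (`Convex.lipschitzOnWith_of_nnnorm_fderiv_le`) and bounded;
`‖u y • B y - u z • B z‖ ≤ |u y| * ‖B y - B z‖ + |u y - u z| * ‖B z‖`; `LipschitzOnWith.of_dist_le_mul`. `ae`: `LipschitzOnWith.ae_differentiableWithinAt`, `ae_restrict_iff'`. `int`: `norm_fderiv_le_of_lipschitzOn`, `hm_bd`, `meas_dL`, `Measure.integrableOn_of_bounded`.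
`ext`: where `r < ‖y‖` the function vanishes near `y`. With `‖fderiv u‖ ≤ K` on the ball: for `y` in the ball and `z` outside, either `r < ‖y‖` (both derivatives vanish) or `1 - r ≤ dist y z`. -/

open Metric Set Filter Topology Complex MeasureTheory Matrix
open scoped ContDiff

set_option linter.unusedSectionVars false

noncomputable section

namespace Vale.Agent.P272.Ms

variable {n : ℕ} {u w p : E n → ℝ} {y : E n} {B B' : E n →L[ℝ] E n →L[ℝ] ℝ} {M M' : Mx n}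

theorem at_C11 (hu : C11 u (ball 0 1)) (hy : y ∈ ball (0 : E n) 1) : DifferentiableAt ℝ u y :=
  hu.1.differentiableAt (isOpen_ball.mem_nhds hy)

theorem bd_C11 {F : Type} [NormedAddCommGroup F] {f : E n → F} {K : ℝ} (hK : 0 ≤ K)
    (h : ∀ y ∈ ball (0 : E n) 1, ∀ z ∈ ball (0 : E n) 1, ‖f y - f z‖ ≤ K * ‖y - z‖)
    (hy : y ∈ ball (0 : E n) 1) : ‖f y‖ ≤ ‖f 0‖ + K := by
  have h1 := h y hy 0 (mem_ball_self one_pos)
  rw [sub_zero] at h1
  have h2 := mul_le_mul_of_nonneg_left (mem_ball_zero_iff.1 hy).le hK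
  have h3 := norm_le_insert' (f y) (f 0)
  linarith

theorem all_C11 (hu : C11 u (ball 0 1)) : ∃ K : ℝ, 0 ≤ K ∧ ∀ y ∈ ball (0 : E n) 1,
    ‖u y‖ ≤ K ∧ ‖fderiv ℝ u y‖ ≤ K ∧ ∀ z ∈ ball (0 : E n) 1, ‖u y - u z‖ ≤ K * ‖y - z‖ ∧
      ‖fderiv ℝ u y - fderiv ℝ u z‖ ≤ K * ‖y - z‖ := by
  obtain ⟨C, hC⟩ := hu.2
  have h1 := lipschitzOnWith_iff_norm_sub_le.1 hC
  have hC0 : (0 : ℝ) ≤ C := C.2
  have h2 : ∀ y ∈ ball (0 : E n) 1, ‖fderiv ℝ u y‖ ≤ ‖fderiv ℝ u 0‖ + C := fun y hy =>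
    bd_C11 hC0 (fun y hy z hz => h1 hy hz) hy
  have h3 : ∀ y ∈ ball (0 : E n) 1, ∀ z ∈ ball (0 : E n) 1,
      ‖u y - u z‖ ≤ (‖fderiv ℝ u 0‖ + C) * ‖y - z‖ := fun y hy z hz =>
    (convex_ball _ _).norm_image_sub_le_of_norm_fderiv_le (fun x hx => at_C11 hu hx) h2 hz hy
  have h4 := norm_nonneg (fderiv ℝ u 0)
  have h5 := norm_nonneg (u 0)
  refine ⟨‖u 0‖ + (‖fderiv ℝ u 0‖ + C), by linarith, fun y hy =>
    ⟨bd_C11 (by linarith) h3 hy, by linarith [h2 y hy], fun z hz => ⟨(h3 y hy z hz).trans ?_,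
      (h1 hy hz).trans ?_⟩⟩⟩
  · exact mul_le_mul_of_nonneg_right (by linarith) (norm_nonneg _)
  · exact mul_le_mul_of_nonneg_right (by linarith) (norm_nonneg _)

theorem smul_C11 {a b K K' d : ℝ} {P Q : E n →L[ℝ] ℝ} (h1 : ‖a‖ ≤ K) (h2 : ‖a - b‖ ≤ K * d)
    (h3 : ‖Q‖ ≤ K') (h4 : ‖P - Q‖ ≤ K' * d) : ‖a • P - b • Q‖ ≤ 2 * K * K' * d := by
  have e : a • P - b • Q = a • (P - Q) + (a - b) • Q := by
    ext v
    simp only [ContinuousLinearMap.sub_apply, ContinuousLinearMap.add_apply,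
      ContinuousLinearMap.smul_apply, smul_eq_mul]
    ring
  rw [e]
  refine (norm_add_le _ _).trans ?_
  rw [norm_smul, norm_smul]
  have h5 := mul_le_mul h1 h4 (norm_nonneg _) ((norm_nonneg _).trans h1)
  have h6 := mul_le_mul h2 h3 (norm_nonneg _) ((norm_nonneg _).trans h2)
  linarith

theorem C11.of_sm {U : Set (E n)} (hU : IsOpen U) (h : closedBall 0 1 ⊆ U)
    (hu : ContDiffOn ℝ ∞ u U) : C11 u (ball 0 1) := by
  refine ⟨(hu.differentiableOn (by simp)).mono (ball_subset_closedBall.trans h), ?_⟩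
  have h1 : ContDiffOn ℝ 1 (fderiv ℝ u) U := hu.fderiv_of_isOpen hU (by
    rw [one_add_one_eq_two]
    exact ENat.LEInfty.out)
  obtain ⟨K, hK⟩ := (h1.mono h).exists_lipschitzOnWith one_ne_zero (convex_closedBall _ _)
    (isCompact_closedBall _ _)
  exact ⟨K, hK.mono ball_subset_closedBall⟩

theorem C11.near (hu : C11 u (ball 0 1)) (hy : y ∈ ball (0 : E n) 1) :
    ∀ᶠ z in 𝓝 y, DifferentiableAt ℝ u z := by
  filter_upwards [isOpen_ball.mem_nhds hy] with z hz using at_C11 hu hz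

theorem C11.add (hu : C11 u (ball 0 1)) (hw : C11 w (ball 0 1)) :
    C11 (fun y => u y + w y) (ball 0 1) := by
  obtain ⟨K, -, hK⟩ := all_C11 hu
  obtain ⟨K', -, hK'⟩ := all_C11 hw
  refine ⟨hu.1.fun_add hw.1, _, LipschitzOnWith.of_dist_le' (K := K + K') fun y hy z hz => ?_⟩
  rw [fderiv_fun_add (at_C11 hu hy) (at_C11 hw hy), fderiv_fun_add (at_C11 hu hz) (at_C11 hw hz),
    dist_eq_norm, dist_eq_norm, add_sub_add_comm, add_mul]
  exact (norm_add_le _ _).trans (add_le_add ((hK y hy).2.2 z hz).2 ((hK' y hy).2.2 z hz).2)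

theorem C11.mul (hu : C11 u (ball 0 1)) (hw : C11 w (ball 0 1)) :
    C11 (fun y => u y * w y) (ball 0 1) := by
  obtain ⟨K, -, hK⟩ := all_C11 hu
  obtain ⟨K', -, hK'⟩ := all_C11 hw
  refine ⟨hu.1.fun_mul hw.1, _,
    LipschitzOnWith.of_dist_le' (K := 2 * K * K' + 2 * K' * K) fun y hy z hz => ?_⟩
  rw [fderiv_fun_mul (at_C11 hu hy) (at_C11 hw hy), fderiv_fun_mul (at_C11 hu hz) (at_C11 hw hz),
    dist_eq_norm, dist_eq_norm, add_sub_add_comm, add_mul]
  exact (norm_add_le _ _).trans (add_le_add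
    (smul_C11 (hK y hy).1 ((hK y hy).2.2 z hz).1 (hK' z hz).2.1 ((hK' y hy).2.2 z hz).2)
    (smul_C11 (hK' y hy).1 ((hK' y hy).2.2 z hz).1 (hK z hz).2.1 ((hK y hy).2.2 z hz).2))

theorem C11.ae (hu : C11 u (ball 0 1)) :
    ∀ᵐ y, y ∈ ball (0 : E n) 1 → DifferentiableAt ℝ (fderiv ℝ u) y := by
  obtain ⟨C, hC⟩ := hu.2
  filter_upwards [hC.ae_differentiableWithinAt_of_mem (μ := volume)] with y hy hy'
  exact (hy hy').differentiableAt (isOpen_ball.mem_nhds hy')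

theorem C11.int (hu : C11 u (ball 0 1)) {χ : E n → ℝ} (hχ : ContinuousOn χ (ball 0 1))
    (hb : ∀ y ∈ ball (0 : E n) 1, |χ y| ≤ 1) :
    IntegrableOn (fun y => χ y * dL u y) (ball 0 1) := by
  obtain ⟨C, hC⟩ := hu.2
  obtain ⟨K, hK⟩ := hm_bd n C
  refine IntegrableOn.of_bound measure_ball_lt_top
    ((hχ.aestronglyMeasurable measurableSet_ball).mul (meas_dL u).aestronglyMeasurable) K
    ((ae_restrict_iff' measurableSet_ball).2 (Eventually.of_forall fun y hy => ?_))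
  have h1 : |dL u y| ≤ K := hK _ (norm_fderiv_le_of_lipschitzOn ℝ (isOpen_ball.mem_nhds hy) hC)
  rw [Real.norm_eq_abs, abs_mul]
  exact (mul_le_mul (hb y hy) h1 (abs_nonneg _) zero_le_one).trans_eq (one_mul K)

theorem C11.ext {r : ℝ} (hr : r < 1) (hu : C11 u (ball 0 1)) (h0 : ∀ y, r < ‖y‖ → u y = 0) :
    C11 u univ ∧ HasCompactSupport u := by
  obtain ⟨K, hK0, hK⟩ := all_C11 hu
  have h1 : ∀ y : E n, r < ‖y‖ → u =ᶠ[𝓝 y] fun _ => 0 := fun y hy => by
    filter_upwards [(isOpen_lt continuous_const continuous_norm).mem_nhds hy] with z hz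
    exact h0 z hz
  have h2 : ∀ y : E n, r < ‖y‖ → fderiv ℝ u y = 0 := fun y hy => by
    rw [(h1 y hy).fderiv_eq, fderiv_fun_const, Pi.zero_apply]
  have h3 : ∀ y : E n, y ∉ ball (0 : E n) 1 → 1 ≤ ‖y‖ := fun y hy =>
    not_lt.1 fun h => hy (mem_ball_zero_iff.2 h)
  have hr' : 0 < 1 - r := sub_pos.2 hr
  have h4 : 0 ≤ K / (1 - r) := div_nonneg hK0 hr'.le
  have h5 : ∀ y z : E n, z ∉ ball (0 : E n) 1 →
      ‖fderiv ℝ u y - fderiv ℝ u z‖ ≤ (K + K / (1 - r)) * ‖y - z‖ := fun y z hz => by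
    rw [h2 z (hr.trans_le (h3 z hz)), sub_zero]
    by_cases hy : r < ‖y‖
    · rw [h2 y hy, norm_zero]
      positivity
    · have h6 := (hK y (mem_ball_zero_iff.2 ((not_lt.1 hy).trans_lt hr))).2.1
      have h7 : 1 - r ≤ ‖y - z‖ := by
        have h8 := norm_le_insert y z
        linarith [h3 z hz, not_lt.1 hy]
      have h9 := mul_le_mul_of_nonneg_left h7 h4
      rw [div_mul_cancel₀ _ hr'.ne'] at h9
      have h10 : 0 ≤ K * ‖y - z‖ := by positivity
      linarith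
  refine ⟨⟨fun y _ => DifferentiableAt.differentiableWithinAt ?_, _,
    LipschitzOnWith.of_dist_le' (K := K + K / (1 - r)) fun y _ z _ => ?_⟩,
    HasCompactSupport.intro (isCompact_closedBall 0 r) fun y hy =>
      h0 y (not_le.1 fun h => hy (mem_closedBall_zero_iff.2 h))⟩
  · by_cases hy : y ∈ ball (0 : E n) 1
    · exact at_C11 hu hy
    · exact (differentiableAt_const (0 : ℝ)).congr_of_eventuallyEq (h1 y (hr.trans_le (h3 y hy)))
  · rw [dist_eq_norm, dist_eq_norm]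
    by_cases hz : z ∈ ball (0 : E n) 1
    · by_cases hy : y ∈ ball (0 : E n) 1
      · exact ((hK y hy).2.2 z hz).2.trans
          (mul_le_mul_of_nonneg_right (by linarith) (norm_nonneg _))
      · rw [norm_sub_rev, norm_sub_rev y]
        exact h5 z y hy
    · exact h5 y z hz

end Vale.Agent.P272.Ms
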