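import Vale.Agent.P272.F.M.Det1

/-! P272 F/M/CV (TASK, owner helper8). Definitions in F/M/Defs, F/Defs, Defs, Stmt. Helper names end with `_CV`.
Let `S = {x ∈ source j ∩ source k | both norms < 1}`, `s = A.e k '' S` (open: `OpenPartialHomeomorph.isOpen_image_of_subset_source`), `T = A.e j ∘ (A.e k).symm`, `T '' s = A.e j '' S`. The unit ball lies in the targets (`A.tgt`), so each `y` of the ball is `A.e j x` with `x = symm y`.
`setIntegral_eq_of_subset_of_forall_diff_eq_zero` reduces the two integrals to `A.e j '' S` and `s`; `integral_image_eq_integral_abs_det_fderiv_smul` with `f' z = (fderiv ℂ T z).restrictScalars ℝ` (`A.hol`), `det_real`, `setIntegral_congr_fun`. -/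

open Metric Set Filter Topology Complex MeasureTheory Matrix
open scoped ContDiff

set_option linter.unusedSectionVars false

noncomputable section

namespace Vale.Agent.P272.Ms

variable {n : ℕ} {X : Type} [TopologicalSpace X] {A : Atl n X} {φ ψ w : X → ℝ} {j k : Fin A.N}
  {x : X}

theorem red_CV (j k : Fin A.N) {f : E n → ℝ}
    (hf : ∀ x ∈ (A.e j).source, ‖A.e j x‖ < 1 → ¬ (x ∈ (A.e k).source ∧ ‖A.e k x‖ < 1) →
      f (A.e j x) = 0) {S : Set X}
    (hS : ∀ x, x ∈ S ↔ (x ∈ (A.e j).source ∧ ‖A.e j x‖ < 1) ∧ x ∈ (A.e k).source ∧ ‖A.e k x‖ < 1) :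
    ∫ y in ball (0 : E n) 1, f y = ∫ y in A.e j '' S, f y := by
  refine setIntegral_eq_of_subset_of_forall_sdiff_eq_zero measurableSet_ball ?_ fun y hy => ?_
  · rintro _ ⟨x, hx, rfl⟩
    exact mem_ball_zero_iff.2 ((hS x).1 hx).1.2
  · have h1 : y ∈ (A.e j).target :=
      A.tgt j (ball_subset_closedBall (ball_subset_ball (by norm_num) hy.1))
    have h2 := (A.e j).right_inv h1
    have h3 : ‖A.e j ((A.e j).symm y)‖ < 1 := by
      rw [h2]
      exact mem_ball_zero_iff.1 hy.1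
    rw [← h2]
    exact hf _ ((A.e j).map_target h1) h3 fun h4 =>
      hy.2 ⟨_, (hS _).2 ⟨⟨(A.e j).map_target h1, h3⟩, h4⟩, h2⟩

theorem open_CV (j : Fin A.N) : IsOpen {x | x ∈ (A.e j).source ∧ ‖A.e j x‖ < 1} :=
  (A.e j).isOpen_inter_preimage (isOpen_lt continuous_norm continuous_const)

theorem cv (j k : Fin A.N) {f g : E n → ℝ}
    (hf : ∀ x ∈ (A.e j).source, ‖A.e j x‖ < 1 → ¬ (x ∈ (A.e k).source ∧ ‖A.e k x‖ < 1) →
      f (A.e j x) = 0)
    (hg : ∀ x ∈ (A.e k).source, ‖A.e k x‖ < 1 → ¬ (x ∈ (A.e j).source ∧ ‖A.e j x‖ < 1) →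
      g (A.e k x) = 0)
    (h : ∀ x ∈ (A.e j).source, x ∈ (A.e k).source → ‖A.e j x‖ < 1 → ‖A.e k x‖ < 1 →
      g (A.e k x) = f (A.e j x) * ‖(A.tr j k x).det‖ ^ 2) :
    ∫ y in ball (0 : E n) 1, f y = ∫ y in ball (0 : E n) 1, g y := by
  obtain ⟨S, hS, hO⟩ : ∃ S : Set X, (∀ x, x ∈ S ↔ (x ∈ (A.e j).source ∧ ‖A.e j x‖ < 1) ∧
      x ∈ (A.e k).source ∧ ‖A.e k x‖ < 1) ∧ IsOpen S :=
    ⟨_, fun _ => Iff.rfl, (open_CV j).inter (open_CV k)⟩
  have h1 : IsOpen (A.e k '' S) :=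
    (A.e k).isOpen_image_of_subset_source hO fun x hx => ((hS x).1 hx).2.1
  have h2 : ∀ x ∈ S, (A.e j ∘ (A.e k).symm) (A.e k x) = A.e j x := fun x hx =>
    congrArg (A.e j) ((A.e k).left_inv ((hS x).1 hx).2.1)
  have h3 : (A.e j ∘ (A.e k).symm) '' (A.e k '' S) = A.e j '' S := by
    rw [image_image]
    exact image_congr h2
  rw [red_CV j k hf hS, red_CV k j hg fun x => (hS x).trans and_comm, ← h3,
    integral_image_eq_integral_abs_det_fderiv_smul volume h1.measurableSet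
      (f' := fun z => (fderiv ℂ (A.e j ∘ (A.e k).symm) z).restrictScalars ℝ)]
  · refine setIntegral_congr_fun h1.measurableSet ?_
    rintro _ ⟨x, hx, rfl⟩
    obtain ⟨⟨a1, a2⟩, a3, a4⟩ := (hS x).1 hx
    simp only [det_real, h2 x hx, h x a1 a3 a2 a4, smul_eq_mul]
    rw [abs_of_nonneg (sq_nonneg _), mul_comm]
    rfl
  · rintro _ ⟨x, hx, rfl⟩
    obtain ⟨⟨a1, -⟩, a3, -⟩ := (hS x).1 hx
    exact ((A.hol j k x a1 a3).hasFDerivAt.restrictScalars ℝ).hasFDerivWithinAt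
  · rintro _ ⟨x, hx, rfl⟩ _ ⟨x', hx', rfl⟩ e
    rw [h2 x hx, h2 x' hx'] at e
    rw [(A.e j).injOn ((hS x).1 hx).1.1 ((hS x').1 hx').1.1 e]

end Vale.Agent.P272.Ms
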