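import Vale.Agent.P272.F.M.Defs

/-! P272 F/M/Det1 (TASK, owner helper8). Definitions in F/M/Defs, F/Defs, Defs, Stmt. Helper names end with `_Det1`.
`det_cmp`: let `N = Matrix.of fun i k => T (eb k) i`; `(T a).ofLp = N *ᵥ a.ofLp`, `N.det = T.det` (`LinearMap.det_toMatrix` with `(EuclideanSpace.basisFun _ ℂ).toBasis`, or `LinearMap.det_toLin`). The Hermitian matrix `H = M' - Nᴴ * M * N` has `qm H a = 0` for all `a`
(`star_mulVec`, `dotProduct_mulVec`, `vecMul_vecMul`); for Hermitian `H` the number `star a ⬝ᵥ H *ᵥ a` is real, so it is zero; polarise with `Pi.single i 1 + Pi.single k 1`, `Pi.single i 1 + Pi.single k I` (or: `H` and `-H` are `PosSemidef`, `PosSemidef.dotProduct_mulVec_zero_iff`). Then `det_mul`, `det_conjTranspose`, `Complex.conj_mul'`, `normSq`.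
`det_real`: `LinearMap.det_restrictScalars`, `Algebra.norm_complex_apply`, `Complex.normSq_eq_norm_sq`. -/

open Metric Set Filter Topology Complex MeasureTheory Matrix
open scoped ContDiff

set_option linter.unusedSectionVars false

noncomputable section

namespace Vale.Agent.P272.Ms

variable {n : ℕ} {u w p : E n → ℝ} {y : E n} {B B' : E n →L[ℝ] E n →L[ℝ] ℝ} {M M' : Mx n}

open scoped ComplexOrder in
theorem zero_Det1 {H : Mx n} (hH : H.IsHermitian) (h : ∀ a : Fin n → ℂ, (star a ⬝ᵥ H *ᵥ a).re = 0) :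
    H = 0 := by
  have h0 : ∀ a : Fin n → ℂ, star a ⬝ᵥ H *ᵥ a = 0 := fun a =>
    Complex.ext (h a) (by simpa using hH.im_star_dotProduct_mulVec_self a)
  have hP : H.PosSemidef := PosSemidef.of_dotProduct_mulVec_nonneg hH fun a => (h0 a).ge
  refine Matrix.ext fun i k => ?_
  have h1 := congrFun ((hP.dotProduct_mulVec_zero_iff (Pi.single k 1)).1 (h0 _)) i
  simpa using h1

theorem mat_Det1 (T : L n) (a : E n) :
    (T a).ofLp = (Matrix.of fun i k => T (eb k) i) *ᵥ a.ofLp := by
  have h1 : a = ∑ k, a k • eb k := by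
    ext i
    simp [eb, Finset.sum_apply, Pi.single_apply]
  ext i
  conv_lhs => rw [h1]
  simp [mulVec, dotProduct, map_sum, Finset.sum_apply, mul_comm]

theorem det_Det1 (T : L n) : (Matrix.of fun i k => T (eb k) i).det = T.det := by
  rw [ContinuousLinearMap.det, ← LinearMap.det_toMatrix (EuclideanSpace.basisFun (Fin n) ℂ).toBasis]
  refine congrArg Matrix.det (Matrix.ext fun i k => ?_)
  simp [LinearMap.toMatrix_apply, eb]

theorem det_cmp (hM : M.IsHermitian) (hM' : M'.IsHermitian) (T : L n)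
    (h : ∀ a, qm M' a = qm M (T a)) : M'.det.re = M.det.re * ‖T.det‖ ^ 2 := by
  obtain ⟨N, hN⟩ : ∃ N : Mx n, N = Matrix.of fun i k => T (eb k) i := ⟨_, rfl⟩
  have h1 : M' - Nᴴ * M * N = 0 := by
    refine zero_Det1 (hM'.sub (isHermitian_conjTranspose_mul_mul N hM)) fun a => ?_
    have h2 := h (WithLp.toLp 2 a)
    unfold qm at h2
    rw [mat_Det1, ← hN] at h2
    rw [sub_mulVec, dotProduct_sub, Complex.sub_re, ← mulVec_mulVec, ← mulVec_mulVec,
      dotProduct_mulVec (star a) Nᴴ, ← star_mulVec]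
    exact sub_eq_zero.2 h2
  rw [sub_eq_zero.1 h1, det_mul, det_mul, det_conjTranspose, hN, det_Det1, mul_right_comm]
  have h3 : star T.det * T.det = ((‖T.det‖ ^ 2 : ℝ) : ℂ) := by
    rw [Complex.star_def, Complex.conj_mul']
    simp
  rw [h3, Complex.re_ofReal_mul, mul_comm]

theorem det_real (T : L n) : (T.restrictScalars ℝ).det = ‖T.det‖ ^ 2 := by
  have h := LinearMap.det_restrictScalars (R := ℝ) (f := (T : E n →ₗ[ℂ] E n))
  rw [Algebra.norm_complex_apply, Complex.normSq_eq_norm_sq] at h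
  exact h

end Vale.Agent.P272.Ms
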