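import Vale.Agent.P272.F.M.Comp
import Vale.Agent.P272.F.M.C11
import Vale.Agent.P272.F.M.Det1

/-! P272 F/M/Cmp (TASK, owner helper8). Definitions in F/M/Defs, F/Defs, Defs, Stmt. Helper names end with `_Cmp`.
`tr_hol`: near `A.e k x` the points are `A.e k x'` with `x'` in both sources (continuity of `symm`), `A.hol`. `loc_cmp`: `left_inv`. `levi_loc`: `levi_comp2`, `D2.congr`, `levi_congr'`.
`dL_cmp`: `det_cmp` with `LM_herm`, `qm_LM`. If `D2 (A.loc φ j) (A.e j x)`: `levi_loc`, `levi_add2`, `θ.cmp`. Otherwise `D2 (A.loc φ k) (A.e k x)` fails too (`levi_loc` with `j`, `k` exchanged), so by `D2.of_add`, `C11.near`, `LM_bad` both Levi matrices are zero.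
`exists_pot`: `levi_add2`, `levi_cmul`, `levi_loc`, `D2.of_sm`. -/

open Metric Set Filter Topology Complex MeasureTheory Matrix
open scoped ContDiff

set_option linter.unusedSectionVars false

noncomputable section

namespace Vale.Agent.P272.Ms

variable {n : ℕ} {X : Type} [TopologicalSpace X] {A : Atl n X} {φ ψ w : X → ℝ} {j k : Fin A.N}
  {x : X}

theorem near_Cmp (hj : x ∈ (A.e j).source) (hk : x ∈ (A.e k).source) :
    ∀ᶠ z in 𝓝 (A.e k x), z ∈ (A.e k).target ∧ (A.e k).symm z ∈ (A.e j).source := by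
  have h1 := (A.e k).map_source hk
  refine Eventually.and ((A.e k).open_target.mem_nhds h1)
    (((A.e k).continuousAt_symm h1).eventually_mem ?_)
  rw [(A.e k).left_inv hk]
  exact (A.e j).open_source.mem_nhds hj

theorem sm_Cmp {u : E n → ℝ} (h : ContDiffOn ℝ ∞ u (A.e j).target) (hj : x ∈ (A.e j).source) :
    D2 u (A.e j x) :=
  D2.of_sm (h.contDiffAt ((A.e j).open_target.mem_nhds ((A.e j).map_source hj)))

theorem tr_hol (hj : x ∈ (A.e j).source) (hk : x ∈ (A.e k).source) :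
    ∀ᶠ z in 𝓝 (A.e k x), DifferentiableAt ℂ (A.e j ∘ (A.e k).symm) z := by
  filter_upwards [near_Cmp hj hk] with z hz
  have h := A.hol j k _ hz.2 ((A.e k).map_target hz.1)
  rwa [(A.e k).right_inv hz.1] at h

theorem loc_cmp (φ : X → ℝ) (hj : x ∈ (A.e j).source) (hk : x ∈ (A.e k).source) :
    A.loc φ j ∘ (A.e j ∘ (A.e k).symm) =ᶠ[𝓝 (A.e k x)] A.loc φ k := by
  filter_upwards [near_Cmp hj hk] with z hz
  exact congrArg φ ((A.e j).left_inv hz.2)

theorem levi_loc (hj : x ∈ (A.e j).source) (hk : x ∈ (A.e k).source)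
    (h : D2 (A.loc φ j) (A.e j x)) : D2 (A.loc φ k) (A.e k x) ∧
      ∀ a, levi (A.loc φ k) (A.e k x) a = levi (A.loc φ j) (A.e j x) (A.tr j k x a) := by
  have e : (A.e j ∘ (A.e k).symm) (A.e k x) = A.e j x := congrArg (A.e j) ((A.e k).left_inv hk)
  have h1 := levi_comp2 (u := A.loc φ j) (tr_hol hj hk) (by rw [e]; exact h)
  refine ⟨h1.1.congr (loc_cmp φ hj hk), fun a => ?_⟩
  rw [← levi_congr' (loc_cmp φ hj hk), h1.2, e]
  rfl

theorem diff_Cmp (θ : A.Pot) (hφ : Reg A φ) (hj : x ∈ (A.e j).source) (h1 : ‖A.e j x‖ < 1) :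
    ∀ᶠ z in 𝓝 (A.e j x), DifferentiableAt ℝ (fun y => θ.u j y + A.loc φ j y) z := by
  filter_upwards [(sm_Cmp (θ.sm j) hj).1, (hφ j).near (mem_ball_zero_iff.2 h1)] with z a b
  exact a.add b

theorem bad_Cmp (θ : A.Pot) (hφ : Reg A φ) (hj : x ∈ (A.e j).source) (h1 : ‖A.e j x‖ < 1)
    (h : ¬ D2 (A.loc φ j) (A.e j x)) : LM (fun y => θ.u j y + A.loc φ j y) (A.e j x) = 0 :=
  LM_bad fun h' => h ((sm_Cmp (θ.sm j) hj).of_add ⟨diff_Cmp θ hφ hj h1, h'⟩)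

theorem dL_cmp (θ : A.Pot) (hφ : Reg A φ) (hj : x ∈ (A.e j).source) (hk : x ∈ (A.e k).source)
    (h1 : ‖A.e j x‖ < 1) (h2 : ‖A.e k x‖ < 1) :
    dL (fun y => θ.u k y + A.loc φ k y) (A.e k x) =
      dL (fun y => θ.u j y + A.loc φ j y) (A.e j x) * ‖(A.tr j k x).det‖ ^ 2 := by
  refine det_cmp (LM_herm (diff_Cmp θ hφ hj h1)) (LM_herm (diff_Cmp θ hφ hk h2)) _ fun a => ?_
  by_cases h : D2 (A.loc φ j) (A.e j x)
  · have h3 := levi_loc hj hk h
    rw [qm_LM, qm_LM, levi_add2 (sm_Cmp (θ.sm k) hk) h3.1, levi_add2 (sm_Cmp (θ.sm j) hj) h,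
      h3.2, θ.cmp j k x hj hk]
  · rw [bad_Cmp θ hφ hj h1 h, bad_Cmp θ hφ hk h2 fun h' => h (levi_loc hk hj h').1]
    simp only [qm, zero_mulVec, dotProduct_zero]

theorem exists_pot (θ ρ : A.Pot) (hψ : A.Sm ψ) (c : ℝ) :
    ∃ τ : A.Pot, τ.u = fun j y => θ.u j y + A.loc ψ j y + c * ρ.u j y := by
  refine ⟨⟨fun j y => θ.u j y + A.loc ψ j y + c * ρ.u j y,
    fun j => ((θ.sm j).add (hψ j)).add (contDiffOn_const.mul (ρ.sm j)),
    fun j k x hj hk a => ?_⟩, rfl⟩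
  have key : ∀ i, x ∈ (A.e i).source → ∀ b,
      levi (fun y => θ.u i y + A.loc ψ i y + c * ρ.u i y) (A.e i x) b = levi (θ.u i) (A.e i x) b +
        levi (A.loc ψ i) (A.e i x) b + c * levi (ρ.u i) (A.e i x) b := fun i hi b => by
    rw [levi_add2 ((sm_Cmp (θ.sm i) hi).add (sm_Cmp (hψ i) hi)) ((sm_Cmp (ρ.sm i) hi).cmul c),
      levi_add2 (sm_Cmp (θ.sm i) hi) (sm_Cmp (hψ i) hi), levi_cmul (sm_Cmp (ρ.sm i) hi)]
  rw [key k hk, key j hj, θ.cmp j k x hj hk, ρ.cmp j k x hj hk,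
    (levi_loc hj hk (sm_Cmp (hψ j) hj)).2]

end Vale.Agent.P272.Ms
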