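import Vale.Agent.P272.F.M.Two

/-! P272 F/M/Comp (TASK, owner helper8). Definitions in F/M/Defs, F/Defs, Defs, Stmt. Helper names end with `_Comp`.
`T` is analytic at `y` (`Vale.Agent.P278.osgood_at`), so `S = fderiv ℂ T` is complex differentiable at `y` (`AnalyticAt.fderiv`) and `fderiv ℂ S y a b` is symmetric and complex bilinear. Near `y`: `fderiv ℝ (u ∘ T) z = (fderiv ℝ u (T z)).comp ((S z).restrictScalars ℝ)`.
Differentiate at `y` (`HasFDerivAt.clm_comp`, or apply to a fixed vector `b` first: `z ↦ fderiv u (T z) (S z b)`, `HasFDerivAt.clm_apply`): `D²(u ∘ T) a a = D²u (S a) (S a) + Du (S' a a)` and `S' (I a) (I a) = - S' a a`. -/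

open Metric Set Filter Topology Complex MeasureTheory Matrix
open scoped ContDiff

set_option linter.unusedSectionVars false

noncomputable section

namespace Vale.Agent.P272.Ms

variable {n : ℕ} {u w p : E n → ℝ} {y : E n} {B B' : E n →L[ℝ] E n →L[ℝ] ℝ} {M M' : Mx n}

theorem key_Comp {T : E n → E n} (hT : AnalyticAt ℂ T y) (hu : D2 u (T y)) :
    DifferentiableAt ℝ (fderiv ℝ (u ∘ T)) y ∧ ∀ a, fderiv ℝ (fderiv ℝ (u ∘ T)) y a a =
      fderiv ℝ (fderiv ℝ u) (T y) (fderiv ℂ T y a) (fderiv ℂ T y a) +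
        fderiv ℝ u (T y) (fderiv ℂ (fderiv ℂ T) y a a) := by
  have e : fderiv ℝ (u ∘ T) =ᶠ[𝓝 y] fun z =>
      (fderiv ℝ u (T z)).comp ((fderiv ℂ T z).restrictScalars ℝ) := by
    filter_upwards [hT.eventually_analyticAt, hT.continuousAt.eventually hu.1] with z h1 h2
    exact (h2.hasFDerivAt.comp z (h1.differentiableAt.hasFDerivAt.restrictScalars ℝ)).fderiv
  have h1 := hu.2.hasFDerivAt.comp y (hT.differentiableAt.hasFDerivAt.restrictScalars ℝ)
  have h2 := (ContinuousLinearMap.restrictScalarsL ℂ (E n) (E n) ℝ ℝ).hasFDerivAt.comp y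
    (hT.fderiv.differentiableAt.hasFDerivAt.restrictScalars ℝ)
  refine ⟨(h1.clm_comp h2).differentiableAt.congr_of_eventuallyEq e, fun a => ?_⟩
  rw [e.fderiv_eq]
  exact (congrArg (fun D : E n →L[ℝ] E n →L[ℝ] ℝ => D a a) (h1.clm_comp h2).fderiv).trans
    (add_comm _ _)

theorem levi_comp2 {T : E n → E n} (hT : ∀ᶠ z in 𝓝 y, DifferentiableAt ℂ T z) (hu : D2 u (T y)) :
    D2 (u ∘ T) y ∧ ∀ a, levi (u ∘ T) y a = levi u (T y) (fderiv ℂ T y a) := by
  have hA : AnalyticAt ℂ T y := Vale.Agent.P278.osgood_at hT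
  obtain ⟨h1, h2⟩ := key_Comp hA hu
  refine ⟨⟨?_, h1⟩, fun a => ?_⟩
  · filter_upwards [hT, hA.continuousAt.eventually hu.1] with z a1 a2
    exact a2.comp z (a1.restrictScalars ℝ)
  · rw [levi, levi, h2, h2, (fderiv ℂ T y).map_smul,
      (fderiv ℂ (fderiv ℂ T) y).map_smul, (I • fderiv ℂ (fderiv ℂ T) y a).map_smul,
      _root_.smul_apply, smul_smul, I_mul_I, neg_one_smul, map_neg]
    ring

end Vale.Agent.P272.Ms
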