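import Vale.Agent.P272.F.Defs

/-! P272 F/M (owner helper8, no task): definitions for the mass of a closed (1,1)-form.
`LM u y` is the Levi matrix (entries `∂̄_i ∂_k u`), `dL` its determinant. Remember that
`fderiv` of a function that is not differentiable is zero. -/

open Metric Set Filter Topology Complex MeasureTheory Matrix
open scoped ContDiff

noncomputable section

namespace Vale.Agent.P272.Ms

variable {n : ℕ} {X : Type} [TopologicalSpace X]

/-- Complex matrices. -/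
abbrev Mx (n : ℕ) : Type := Matrix (Fin n) (Fin n) ℂ

/-- The complex matrix of a real bilinear form. -/
def hm (B : E n →L[ℝ] E n →L[ℝ] ℝ) : Mx n := Matrix.of fun i k =>
  (((B (eb i) (eb k) + B (I • eb i) (I • eb k) : ℝ) : ℂ) -
    I * ((B (eb i) (I • eb k) - B (I • eb i) (eb k) : ℝ) : ℂ)) / 4

/-- The Levi matrix. -/
def LM (u : E n → ℝ) (y : E n) : Mx n := hm (fderiv ℝ (fderiv ℝ u) y)

/-- The quadratic form of a matrix. -/
def qm (M : Mx n) (a : E n) : ℝ := (star a.ofLp ⬝ᵥ M *ᵥ a.ofLp).re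

/-- The determinant of the Levi matrix. -/
def dL (u : E n → ℝ) (y : E n) : ℝ := (LM u y).det.re

/-- Twice differentiable at `y`. -/
def D2 (u : E n → ℝ) (y : E n) : Prop :=
  (∀ᶠ z in 𝓝 y, DifferentiableAt ℝ u z) ∧ DifferentiableAt ℝ (fderiv ℝ u) y

/-- Differentiable with Lipschitz derivative. -/
def C11 (u : E n → ℝ) (S : Set (E n)) : Prop :=
  DifferentiableOn ℝ u S ∧ ∃ C : NNReal, LipschitzOnWith C (fderiv ℝ u) S

/-- The operator `∂̄_i`. -/
def dzb (i : Fin n) (f : E n → ℂ) : E n → ℂ :=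
  fun y => (fderiv ℝ f y (eb i) + I * fderiv ℝ f y (I • eb i)) / 2

/-- The function `∂_k u`. -/
def dzu (k : Fin n) (u : E n → ℝ) : E n → ℂ :=
  fun y => (((fderiv ℝ u y (eb k) : ℝ) : ℂ) - I * ((fderiv ℝ u y (I • eb k) : ℝ) : ℂ)) / 2

/-- `C11` on the unit ball of every chart. -/
def Reg (A : Atl n X) (φ : X → ℝ) : Prop := ∀ j, C11 (A.loc φ j) (ball 0 1)

/-- A partition of unity. -/
structure Part (A : Atl n X) where
  χ : Fin A.N → X → ℝ
  r : ℝ
  r1 : r < 1
  sm : ∀ j, A.Sm (χ j)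
  nn : ∀ j x, 0 ≤ χ j x
  sum : ∀ x, ∑ j, χ j x = 1
  supp : ∀ j x, ¬ A.In j r x → χ j =ᶠ[𝓝 x] 0

/-- The total mass of the top power of the form with potentials `u`. -/
def Part.mass {A : Atl n X} (P : Part A) (u : Fin A.N → E n → ℝ) : ℝ :=
  ∑ j, ∫ y in ball (0 : E n) 1, A.loc (P.χ j) j y * dL (u j) y

end Vale.Agent.P272.Ms
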