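import Vale.Agent.P272.F.M.Step
import Vale.Agent.P272.F.M.Det2

/-! P272 F/M/Gain (TASK, owner helper8). Definitions in F/M/Defs, F/Defs, Defs, Stmt. Helper names end with `_Gain`.
`reg_of_sm`: `C11.of_sm`. `mass_inv`: by induction on a finite set `s`, adding `φ s = fun x => ∑ k ∈ s, P.χ k x * φ x` does not change the mass (prove `Reg A (φ s)` in the same induction; `mass_step`, `C11.mul`, `C11.add`, `P.supp`); `P.sum`.
`mass_gain`: term by term (`Finset.mul_sum`, `integral_const_mul`, `setIntegral_mono_on_ae` or `integral_mono_ae`, `int_part`). At almost every point (`C11.ae`, `C11.near`) `D2 (loc φ j) y` holds; `LM_add` writes the larger matrix as `LM (τ.u j + loc φ j) y + LM (ρ.u j) y`; `det_gain`, `LM_herm`, `qm_LM`, `levi_add2`. -/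

open Metric Set Filter Topology Complex MeasureTheory Matrix
open scoped ContDiff

set_option linter.unusedSectionVars false

noncomputable section

namespace Vale.Agent.P272.Ms

variable {n : ℕ} {X : Type} [TopologicalSpace X] {A : Atl n X} {φ ψ w : X → ℝ} {j k : Fin A.N}
  {x : X}

theorem ball_Gain (j : Fin A.N) : closedBall (0 : E n) 1 ⊆ (A.e j).target :=
  (closedBall_subset_closedBall (by norm_num)).trans (A.tgt j)

theorem pot_Gain (θ : A.Pot) (j : Fin A.N) : C11 (θ.u j) (ball 0 1) :=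
  C11.of_sm (A.e j).open_target (ball_Gain j) (θ.sm j)

theorem reg_of_sm (h : A.Sm ψ) : Reg A ψ :=
  fun j => C11.of_sm (A.e j).open_target (ball_Gain j) (h j)

theorem mass_inv (hn : 1 ≤ n) (P : Part A) (θ : A.Pot) (hφ : Reg A φ) :
    P.mass (fun j y => θ.u j y + A.loc φ j y) = P.mass θ.u := by
  classical
  have key : ∀ s : Finset (Fin A.N), Reg A (fun x => ∑ k ∈ s, P.χ k x * φ x) ∧
      P.mass (fun j y => θ.u j y + A.loc (fun x => ∑ k ∈ s, P.χ k x * φ x) j y) = P.mass θ.u := by
    intro s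
    induction s using Finset.induction_on with
    | empty =>
      simp only [Finset.sum_empty]
      refine ⟨reg_of_sm fun j => contDiffOn_const, congrArg P.mass ?_⟩
      funext j y
      exact add_zero _
    | insert a s ha ih =>
      have e : (fun x => ∑ k ∈ insert a s, P.χ k x * φ x) =
          fun x => (∑ k ∈ s, P.χ k x * φ x) + P.χ a x * φ x := by
        funext x
        rw [Finset.sum_insert ha, add_comm]
      have hw : Reg A fun x => P.χ a x * φ x := fun j => (reg_of_sm (P.sm a) j).mul (hφ j)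
      rw [e]
      refine ⟨fun j => (ih.1 j).add (hw j), (mass_step hn P θ ih.1 hw a fun x hx => ?_).trans ih.2⟩
      filter_upwards [P.supp a x hx] with z hz
      rw [hz, Pi.zero_apply, zero_mul]
  have e : (fun x => ∑ k, P.χ k x * φ x) = φ := by
    funext x
    rw [← Finset.sum_mul, P.sum, one_mul]
  have h := (key Finset.univ).2
  rwa [e] at h

theorem mass_gain (P : Part A) (τ ρ : A.Pot) (hρ : ρ.Pos) (hφ : Reg A φ) {s : ℝ} (hs : 0 < s)
    (h : ∀ j, ∀ y ∈ ball (0 : E n) 1, DifferentiableAt ℝ (fderiv ℝ (A.loc φ j)) y →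
      (∀ a, 0 ≤ levi (τ.u j) y a + levi (A.loc φ j) y a) ∧
        ∃ a, a ≠ 0 ∧ levi (τ.u j) y a + levi (A.loc φ j) y a ≤ s * levi (ρ.u j) y a) :
    (1 + 1 / s) * P.mass (fun j y => τ.u j y + A.loc φ j y) ≤
      P.mass (fun j y => τ.u j y + A.loc φ j y + ρ.u j y) := by
  unfold Part.mass
  rw [Finset.mul_sum]
  refine Finset.sum_le_sum fun j _ => ?_
  have c1 := (pot_Gain τ j).add (hφ j)
  have c2 := c1.add (pot_Gain ρ j)
  rw [← integral_const_mul]
  refine setIntegral_mono_on_ae ((int_part P j j c1).const_mul _) (int_part P j j c2)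
    measurableSet_ball ?_
  filter_upwards [(hφ j).ae] with y hy hyb
  have hm : y ∈ (A.e j).target := ball_Gain j (ball_subset_closedBall hyb)
  have hn := (A.e j).open_target.mem_nhds hm
  have d1 : D2 (τ.u j) y := D2.of_sm ((τ.sm j).contDiffAt hn)
  have d2 : D2 (A.loc φ j) y := ⟨(hφ j).near hyb, hy hyb⟩
  have d3 : D2 (ρ.u j) y := D2.of_sm ((ρ.sm j).contDiffAt hn)
  obtain ⟨p1, a, ha, p2⟩ := h j y hyb (hy hyb)
  have g := det_gain (LM_herm (d1.add d2).1) (LM_herm d3.1)
    (fun a => by rw [qm_LM, levi_add2 d1 d2]; exact p1 a)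
    (fun a ha => by rw [qm_LM]; exact hρ j y hm a ha) hs ha
    (by rw [qm_LM, qm_LM, levi_add2 d1 d2]; exact p2)
  rw [← LM_add (d1.add d2) d3] at g
  rw [mul_left_comm]
  exact mul_le_mul_of_nonneg_left g (P.nn _ _)

end Vale.Agent.P272.Ms
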