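import Vale.Agent.P272.F.M.MolA

/-! P272 F/M/Mol (TASK, owner helper8). Definitions in F/M/Defs, F/Defs, Defs, Stmt. Helper names end with `_Mol`.
Bumps `φ m : ContDiffBump (0 : E n)` with `rIn = 1 / (m + 2) / 2`, `rOut = 1 / (m + 2)`; `v m = convolution ((φ m).normed volume) u (ContinuousLinearMap.lsmul ℝ ℝ) volume`, which is `fun y => ∫ s, (φ m).normed volume s • u (y - s)` (`convolution_def`, `rfl`).
`u` is Lipschitz (`fderiv u` is continuous with compact support, `lipschitzWith_of_nnnorm_fderiv_le`). Apply `fderiv_conv` twice: the second derivative of `v m` is the convolution with `fderiv (fderiv u)`, which is measurable and bounded by `C` (`norm_fderiv_le_of_lipschitz`), so locally integrable.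
Smooth: `HasCompactSupport.contDiff_convolution_left`. `K = cthickening 1 (tsupport u)`; outside `K` the function vanishes near `y` since `u (z - s) = 0` for `‖s‖ < 1 / 2`, `dist z y` small (`K` is closed: at `z ∉ K` the integrand is zero). Limit: `ContDiffBump.ae_convolution_tendsto_right_of_locallyIntegrable` with `K = 2`. Bound: `norm_integral_le_of_norm_le`, `ContDiffBump.integral_normed`. -/

open Metric Set Filter Topology Complex MeasureTheory Matrix
open scoped ContDiff

set_option linter.unusedSectionVars false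

noncomputable section

namespace Vale.Agent.P272.Ms

variable {n : ℕ} {u w p : E n → ℝ} {y : E n} {B B' : E n →L[ℝ] E n →L[ℝ] ℝ} {M M' : Mx n}

theorem meas_Mol {F : Type} [NormedAddCommGroup F] [NormedSpace ℝ F] [FiniteDimensional ℝ F]
    (g : E n → F) : AEStronglyMeasurable (fderiv ℝ g) volume := by
  have : CompleteSpace F := FiniteDimensional.complete ℝ F
  let : MeasurableSpace (E n →L[ℝ] F) := borel _
  have : BorelSpace (E n →L[ℝ] F) := ⟨rfl⟩
  exact (measurable_fderiv ℝ g).aestronglyMeasurable

/-- The bump functions. -/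
def bump_Mol (n m : ℕ) : ContDiffBump (0 : E n) where
  rIn := 1 / ((m : ℝ) + 1) / 2
  rOut := 1 / ((m : ℝ) + 1)
  rIn_pos := by positivity
  rIn_lt_rOut := half_lt_self (by positivity)

theorem bd_Mol {F : Type} [NormedAddCommGroup F] [NormedSpace ℝ F] {g : E n → F} {C : NNReal}
    (hg : LipschitzWith C g) (m : ℕ) (y : E n) :
    ‖∫ s, (bump_Mol n m).normed volume s • fderiv ℝ g (y - s)‖ ≤ C := by
  refine (norm_integral_le_of_norm_le ((bump_Mol n m).integrable_normed.mul_const C)
    (ae_of_all _ fun s => ?_)).trans_eq ?_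
  · rw [norm_smul, Real.norm_of_nonneg ((bump_Mol n m).nonneg_normed s)]
    exact mul_le_mul_of_nonneg_left (norm_fderiv_le_of_lipschitz ℝ hg)
      ((bump_Mol n m).nonneg_normed s)
  · rw [integral_mul_const, ContDiffBump.integral_normed, one_mul]

theorem lim_Mol {F : Type} [NormedAddCommGroup F] [NormedSpace ℝ F] [FiniteDimensional ℝ F]
    {g : E n → F} {C : NNReal} (hg : LipschitzWith C g) : ∀ᵐ y, Tendsto (fun m =>
      ∫ s, (bump_Mol n m).normed volume s • fderiv ℝ g (y - s)) atTop (𝓝 (fderiv ℝ g y)) := by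
  have : CompleteSpace F := FiniteDimensional.complete ℝ F
  have h7 : LocallyIntegrable (fderiv ℝ g) volume :=
    (memLp_top_of_bound (meas_Mol _) C
      (ae_of_all _ fun _ => norm_fderiv_le_of_lipschitz ℝ hg)).locallyIntegrable le_top
  exact ContDiffBump.ae_convolution_tendsto_right_of_locallyIntegrable (φ := bump_Mol n)
    (l := atTop) (K := 2) tendsto_one_div_add_atTop_nhds_zero_nat
    (Eventually.of_forall fun m => (mul_div_cancel₀ _ two_ne_zero).ge) h7

theorem exists_mol (hu : C11 u univ) (hc : HasCompactSupport u) :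
    ∃ (v : ℕ → E n → ℝ) (K : Set (E n)) (C : ℝ), IsCompact K ∧ (∀ m, ContDiff ℝ ∞ (v m)) ∧
      (∀ m y, y ∉ K → v m y = 0) ∧ (∀ m y, ‖fderiv ℝ (fderiv ℝ (v m)) y‖ ≤ C) ∧
      ∀ᵐ y, Tendsto (fun m => fderiv ℝ (fderiv ℝ (v m)) y) atTop
        (𝓝 (fderiv ℝ (fderiv ℝ u) y)) := by
  obtain ⟨h1, C, h2⟩ := hu
  rw [differentiableOn_univ] at h1
  rw [lipschitzOnWith_univ] at h2
  obtain ⟨C₀, h3⟩ := (hc.fderiv ℝ).exists_bound_of_continuous h2.continuous
  have h4 : LipschitzWith C₀.toNNReal u := lipschitzWith_of_nnnorm_fderiv_le h1 fun x =>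
    NNReal.coe_le_coe.1 ((h3 x).trans (Real.le_coe_toNNReal C₀))
  have h5 : ∀ m, fderiv ℝ (fderiv ℝ fun y => ∫ s, (bump_Mol n m).normed volume s • u (y - s)) =
      fun y => ∫ s, (bump_Mol n m).normed volume s • fderiv ℝ (fderiv ℝ u) (y - s) := fun m => by
    have e : (fderiv ℝ fun y => ∫ s, (bump_Mol n m).normed volume s • u (y - s)) =
        fun y => ∫ s, (bump_Mol n m).normed volume s • fderiv ℝ u (y - s) := funext fun y =>
      (fderiv_conv (bump_Mol n m).continuous_normed (bump_Mol n m).hasCompactSupport_normed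
        h4 y).fderiv
    rw [e]
    exact funext fun y => (fderiv_conv (bump_Mol n m).continuous_normed
      (bump_Mol n m).hasCompactSupport_normed h2 y).fderiv
  refine ⟨fun m y => ∫ s, (bump_Mol n m).normed volume s • u (y - s),
    cthickening 1 (tsupport u), C, hc.isCompact.cthickening, fun m => ?_, fun m y hy => ?_,
    fun m y => ?_, ?_⟩
  · exact (bump_Mol n m).hasCompactSupport_normed.contDiff_convolution_left
      (ContinuousLinearMap.lsmul ℝ ℝ) (bump_Mol n m).contDiff_normed
      h4.continuous.locallyIntegrable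
  · refine integral_eq_zero_of_ae (ae_of_all _ fun s => ?_)
    by_cases h : (bump_Mol n m).normed volume s = 0
    · simp only [h, zero_smul, Pi.zero_apply]
    · have h7 : s ∈ ball (0 : E n) (bump_Mol n m).rOut :=
        (bump_Mol n m).support_normed_eq (μ := volume) ▸ h
      have h8 : ‖s‖ < 1 / ((m : ℝ) + 1) := mem_ball_zero_iff.1 h7
      have h9 : 1 / ((m : ℝ) + 1) ≤ 1 := by
        rw [div_le_one (by positivity)]
        linarith [(Nat.cast_nonneg m : (0 : ℝ) ≤ m)]
      have h10 : u (y - s) = 0 := image_eq_zero_of_notMem_tsupport fun h' =>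
        hy (mem_cthickening_of_dist_le y (y - s) 1 _ h' (by
          rw [dist_eq_norm, sub_sub_cancel]
          linarith))
      simp only [h10, smul_zero, Pi.zero_apply]
  · rw [h5]
    exact bd_Mol h2 m y
  · simp only [h5]
    exact lim_Mol h2

end Vale.Agent.P272.Ms
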