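import Vale.Agent.P272.F.M.Defs

/-! P272 F/M/MolA (TASK, owner helper8). Definitions in F/M/Defs, F/Defs, Defs, Stmt. Helper names end with `_MolA`.
`hasFDerivAt_integral_of_dominated_loc_of_lip` with `s = univ`, bound `|η s| * C`; for almost every `s` the map `g` is differentiable at `y - s` (`LipschitzWith.ae_differentiableAt`, the map `s ↦ y - s` preserves the measure: `Measure.measurePreserving_sub_left`, `QuasiMeasurePreserving.ae`);
measurability of `s ↦ fderiv g (y - s)` by `measurable_fderiv` (finite dimensional, `borelize`; `stronglyMeasurable`). -/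

open Metric Set Filter Topology Complex MeasureTheory Matrix
open scoped ContDiff

set_option linter.unusedSectionVars false

noncomputable section

namespace Vale.Agent.P272.Ms

variable {n : ℕ}

theorem fderiv_conv {F : Type} [NormedAddCommGroup F] [NormedSpace ℝ F] [FiniteDimensional ℝ F]
    {η : E n → ℝ} (hη : Continuous η) (hc : HasCompactSupport η) {g : E n → F} {C : NNReal}
    (hg : LipschitzWith C g) (y : E n) :
    HasFDerivAt (fun y => ∫ s, η s • g (y - s)) (∫ s, η s • fderiv ℝ g (y - s)) y := by
  borelize F
  have hgc := hg.continuous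
  have hae : ∀ᵐ s : E n, DifferentiableAt ℝ g (y - s) :=
    (Measure.measurePreserving_sub_left (volume : Measure (E n)) y).quasiMeasurePreserving.ae
      (hg.ae_differentiableAt (μ := volume))
  have hcont : ∀ x : E n, Continuous fun s => η s • g (x - s) := fun x => by fun_prop
  have hm : AEStronglyMeasurable (fun s => η s • fderiv ℝ g (y - s)) volume := by
    borelize (E n →L[ℝ] F)
    exact hη.aestronglyMeasurable.smul
      ((measurable_fderiv ℝ g).comp (measurable_const.sub measurable_id)).aestronglyMeasurable
  refine (hasFDerivAt_integral_of_dominated_loc_of_lip (𝕜 := ℝ) (μ := volume) (s := univ)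
    (F := fun x s => η s • g (x - s)) (F' := fun s => η s • fderiv ℝ g (y - s))
    (bound := fun s => ‖η s‖ * C) univ_mem
    (Eventually.of_forall fun x => (hcont x).aestronglyMeasurable)
    ((hcont y).integrable_of_hasCompactSupport hc.smul_right) hm
    (Eventually.of_forall fun s => ?_)
    ((hη.integrable_of_hasCompactSupport hc).norm.mul_const _) ?_).2
  · refine LipschitzOnWith.of_dist_le_mul fun x _ x' _ => ?_
    have h1 := hg.dist_le_mul (x - s) (x' - s)
    rw [dist_sub_right] at h1
    rw [dist_smul₀, Real.coe_nnabs, abs_of_nonneg (by positivity), mul_assoc]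
    exact mul_le_mul_of_nonneg_left h1 (norm_nonneg _)
  · filter_upwards [hae] with s hs
    have h1 : HasFDerivAt (fun x => g (x - s)) (fderiv ℝ g (y - s)) y := by
      have h2 := hs.hasFDerivAt.comp y ((hasFDerivAt_id y).sub_const s)
      rw [ContinuousLinearMap.comp_id] at h2
      exact h2
    exact h1.const_smul (η s)

end Vale.Agent.P272.Ms
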