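import Vale.Agent.P272.F.M.NLs
import Vale.Agent.P272.F.M.Mol
import Vale.Agent.P272.F.M.C11

/-! P272 F/M/NL (TASK, owner helper8). Definitions in F/M/Defs, F/Defs, Defs, Stmt. Helper names end with `_NL`.
`nl`: `exists_mol`, `nl_smooth` (`HasCompactSupport.intro`), `tendsto_integral_of_dominated_convergence` with the bound `K.indicator fun _ => K'` (`hm_bd`; outside the closed set `K` use `dL_zero`), `cont_hm`, `meas_dL`, `tendsto_nhds_unique`.
`nl_loc`: take `β : ContDiffBump (0 : E n)` with `max r 0 < rIn < rOut < 1`, `P = β * p`, `Q = β * (p + w)`; `C11.of_sm` (`U = univ`), `mul`, `add`, `ext`, `nl` give that the integrals of `dL P`, `dL Q` vanish; these functions vanish outside the unit ball (`dL_zero`), `setIntegral_eq_integral_of_forall_compl_eq_zero`, `C11.int` with `χ = 1`.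
On the ball the integrand equals `dL Q y - dL P y`: for `‖y‖ < rIn` use `dL_congr` (`β = 1` near `y`), otherwise `r < ‖y‖`, `w = 0` near `y` and both differences vanish. -/

open Metric Set Filter Topology Complex MeasureTheory Matrix
open scoped ContDiff

set_option linter.unusedSectionVars false

noncomputable section

namespace Vale.Agent.P272.Ms

variable {n : ℕ} {u w p : E n → ℝ} {y : E n} {B B' : E n →L[ℝ] E n →L[ℝ] ℝ} {M M' : Mx n}

theorem nl (hn : 1 ≤ n) (hu : C11 u univ) (hc : HasCompactSupport u) : ∫ y, dL u y = 0 := by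
  obtain ⟨v, K, C, hK, hs, h0, hb, ht⟩ := exists_mol hu hc
  obtain ⟨K', hK'⟩ := hm_bd n C
  have h1 : ∀ m, ∫ y, dL (v m) y = 0 := fun m =>
    nl_smooth hn (hs m) (HasCompactSupport.intro hK (h0 m))
  have h2 : Tendsto (fun m => ∫ y, dL (v m) y) atTop (𝓝 (∫ y, dL u y)) := by
    refine tendsto_integral_of_dominated_convergence (K.indicator fun _ => K')
      (fun m => (meas_dL _).aestronglyMeasurable) ?_ (fun m => Eventually.of_forall fun y => ?_) ?_
    · exact (integrable_indicator_iff hK.measurableSet).2 (integrableOn_const hK.measure_lt_top.ne)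
    · by_cases hy : y ∈ K
      · rw [indicator_of_mem hy]
        exact hK' _ (hb m y)
      · rw [indicator_of_notMem hy, dL_zero hn, norm_zero]
        filter_upwards [hK.isClosed.isOpen_compl.mem_nhds hy] with z hz using h0 m z hz
    · filter_upwards [ht] with y hy
      have h3 : Continuous fun B : E n →L[ℝ] E n →L[ℝ] ℝ => (hm B).det.re :=
        Complex.continuous_re.comp cont_hm.matrix_det
      exact (h3.tendsto _).comp hy
  simp only [h1] at h2
  exact tendsto_nhds_unique h2 tendsto_const_nhds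

theorem cut_NL (hn : 1 ≤ n) (β : ContDiffBump (0 : E n)) (hβ : β.rOut < 1)
    (hp : C11 p (ball 0 1)) : IntegrableOn (dL fun z => β z * p z) (ball 0 1) ∧
      ∫ y in ball (0 : E n) 1, dL (fun z => β z * p z) y = 0 := by
  have h1 : C11 (fun z => β z * p z) (ball 0 1) :=
    (C11.of_sm isOpen_univ (subset_univ _) β.contDiff.contDiffOn).mul hp
  have h2 : ∀ y, β.rOut < ‖y‖ → β y * p y = 0 := fun y hy => by
    rw [β.zero_of_le_dist (by rw [dist_zero_right]; exact hy.le), zero_mul]
  obtain ⟨h3, h4⟩ := h1.ext hβ h2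
  refine ⟨?_, ?_⟩
  · simpa only [one_mul] using h1.int (χ := fun _ => 1) continuousOn_const fun _ _ => by simp
  · rw [setIntegral_eq_integral_of_forall_compl_eq_zero fun y hy => dL_zero hn ?_]
    · exact nl hn h3 h4
    · have h5 : β.rOut < ‖y‖ := hβ.trans_le (not_lt.1 (mt mem_ball_zero_iff.2 hy))
      filter_upwards [(isOpen_lt continuous_const continuous_norm).mem_nhds h5] with z hz
        using h2 z hz

theorem nl_loc (hn : 1 ≤ n) {r : ℝ} (hr : r < 1) (hp : C11 p (ball 0 1)) (hw : C11 w (ball 0 1))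
    (h0 : ∀ y ∈ ball (0 : E n) 1, r < ‖y‖ → w y = 0) :
    ∫ y in ball (0 : E n) 1, (dL (fun z => p z + w z) y - dL p y) = 0 := by
  have hρ : max r 0 < 1 := max_lt hr one_pos
  have hρ0 : 0 ≤ max r 0 := le_max_right _ _
  obtain ⟨β, hi, ho⟩ : ∃ β : ContDiffBump (0 : E n), r < β.rIn ∧ β.rOut < 1 :=
    ⟨⟨(max r 0 + 1) / 2, (max r 0 + 3) / 4, by linarith, by linarith⟩,
      by have := le_max_left r 0; change r < (max r 0 + 1) / 2; linarith,
      by change (max r 0 + 3) / 4 < 1; linarith⟩
  obtain ⟨a1, a2⟩ := cut_NL hn β ho hp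
  obtain ⟨b1, b2⟩ := cut_NL hn β ho (hp.add hw)
  have e : ∫ y in ball (0 : E n) 1, (dL (fun z => p z + w z) y - dL p y) =
      ∫ y in ball (0 : E n) 1,
        (dL (fun z => β z * (p z + w z)) y - dL (fun z => β z * p z) y) := by
    refine setIntegral_congr_fun measurableSet_ball fun y hy => ?_
    by_cases h1 : ‖y‖ < β.rIn
    · have h2 := β.eventuallyEq_one_of_mem_ball (mem_ball_zero_iff.2 h1)
      have h3 : (fun z => β z * (p z + w z)) =ᶠ[𝓝 y] fun z => p z + w z := by
        filter_upwards [h2] with z hz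
        rw [hz, Pi.one_apply, one_mul]
      have h4 : (fun z => β z * p z) =ᶠ[𝓝 y] p := by
        filter_upwards [h2] with z hz
        rw [hz, Pi.one_apply, one_mul]
      simp only [dL_congr h3, dL_congr h4]
    · have h2 : ∀ᶠ z in 𝓝 y, w z = 0 := by
        filter_upwards [isOpen_ball.mem_nhds hy, (isOpen_lt continuous_const
          continuous_norm).mem_nhds (hi.trans_le (not_lt.1 h1))] with z h3 h4 using h0 z h3 h4
      have h3 : (fun z => β z * (p z + w z)) =ᶠ[𝓝 y] fun z => β z * p z := by
        filter_upwards [h2] with z hz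
        rw [hz, add_zero]
      have h4 : (fun z => p z + w z) =ᶠ[𝓝 y] p := by
        filter_upwards [h2] with z hz
        rw [hz, add_zero]
      simp only [dL_congr h3, dL_congr h4, sub_self]
  rw [e, integral_sub b1 a1, a2, b2, sub_self]

end Vale.Agent.P272.Ms
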