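import Vale.Agent.P272.F.M.Defs

/-! P272 F/M/NLa (TASK, owner helper8). Definitions in F/M/Defs, F/Defs, Defs, Stmt. Helper names end with `_NLa`.
Calculus for `dzb`, `dzu`. Smoothness: `ContDiff.fderiv_right`, `clm_apply`, `Complex.ofRealCLM`. `dzb_comm`: `fderiv (fun y => fderiv f y a) y b = fderiv (fderiv f) y b a` (`fderiv_clm_apply`), `ContDiffAt.isSymmSndFDerivAt`.
`dzb_int`: the integral of `fderiv f y v` is zero by `integral_bilinear_hasLineDerivAt_right_eq_neg_left_of_integrable` with the constant function `1` (`HasCompactSupport.fderiv_apply`, `Continuous.integrable_of_hasCompactSupport`).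
`LM_eq`: compute `fderiv (dzu k u) y v` from `HasFDerivAt`, then `simp`, `ring` with `I_mul_I` (or `Complex.ext`). -/

open Metric Set Filter Topology Complex MeasureTheory Matrix
open scoped ContDiff

set_option linter.unusedSectionVars false

noncomputable section

namespace Vale.Agent.P272.Ms

variable {n : ℕ} {u w p : E n → ℝ} {y : E n} {B B' : E n →L[ℝ] E n →L[ℝ] ℝ} {M M' : Mx n}

variable {f g : E n → ℂ}

theorem fd_NLa {F : Type} [NormedAddCommGroup F] [NormedSpace ℝ F] {f : E n → F}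
    (hf : ContDiff ℝ ∞ f) (a : E n) : ContDiff ℝ ∞ fun y => fderiv ℝ f y a :=
  (hf.fderiv_right (m := ∞) (by simp)).clm_apply contDiff_const

theorem d2_NLa {F : Type} [NormedAddCommGroup F] [NormedSpace ℝ F] {f : E n → F}
    (hf : ContDiff ℝ ∞ f) (a y : E n) :
    HasFDerivAt (fun y => fderiv ℝ f y a) ((fderiv ℝ (fderiv ℝ f) y).flip a) y := by
  have h1 : DifferentiableAt ℝ (fderiv ℝ f) y :=
    (hf.fderiv_right (m := ∞) (by simp)).differentiable (by simp) y
  have h2 := h1.hasFDerivAt.clm_apply (hasFDerivAt_const a y)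
  simpa using h2

theorem dzb_sm (i : Fin n) (hf : ContDiff ℝ ∞ f) : ContDiff ℝ ∞ (dzb i f) :=
  ((fd_NLa hf _).add (contDiff_const.mul (fd_NLa hf _))).div_const 2

theorem dzb_mul (i : Fin n) (hf : ContDiff ℝ ∞ f) (hg : ContDiff ℝ ∞ g) :
    dzb i (f * g) = dzb i f * g + f * dzb i g := by
  funext y
  simp only [dzb, fderiv_mul (hf.differentiable (by simp) y) (hg.differentiable (by simp) y),
    Pi.add_apply, Pi.mul_apply, _root_.add_apply, _root_.smul_apply, smul_eq_mul]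
  ring

theorem dzb_NLa (i : Fin n) (hf : ContDiff ℝ ∞ f) (y v : E n) : fderiv ℝ (dzb i f) y v =
    (fderiv ℝ (fderiv ℝ f) y v (eb i) + I * fderiv ℝ (fderiv ℝ f) y v (I • eb i)) / 2 := by
  have h := (((d2_NLa hf (eb i) y).fun_add ((d2_NLa hf (I • eb i) y).const_mul I)).mul_const
    (2 : ℂ)⁻¹).fderiv
  have e : dzb i f = fun y => (fderiv ℝ f y (eb i) + I * fderiv ℝ f y (I • eb i)) * (2 : ℂ)⁻¹ :=
    funext fun y => div_eq_mul_inv _ _
  rw [e, h]
  simp only [_root_.add_apply, _root_.smul_apply, ContinuousLinearMap.flip_apply, smul_eq_mul]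
  ring

theorem dzb_comm (i j : Fin n) (hf : ContDiff ℝ ∞ f) : dzb i (dzb j f) = dzb j (dzb i f) := by
  funext y
  have hs : IsSymmSndFDerivAt ℝ f y := hf.contDiffAt.isSymmSndFDerivAt
    (by rw [minSmoothness_of_isRCLikeNormedField]; exact WithTop.coe_le_coe.2 le_top)
  show (fderiv ℝ (dzb j f) y (eb i) + I * fderiv ℝ (dzb j f) y (I • eb i)) / 2 =
    (fderiv ℝ (dzb i f) y (eb j) + I * fderiv ℝ (dzb i f) y (I • eb j)) / 2
  simp only [dzb_NLa _ hf]
  rw [hs (eb i) (eb j), hs (eb i) (I • eb j), hs (I • eb i) (eb j), hs (I • eb i) (I • eb j)]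
  ring

theorem int_NLa (hf : ContDiff ℝ ∞ f) (hc : HasCompactSupport f) (v : E n) :
    Integrable (fun y => fderiv ℝ f y v) ∧ ∫ y, fderiv ℝ f y v = 0 := by
  have i1 : Integrable (fun y => fderiv ℝ f y v) :=
    (fd_NLa hf v).continuous.integrable_of_hasCompactSupport (hc.fderiv_apply ℝ v)
  have i2 : Integrable f := hf.continuous.integrable_of_hasCompactSupport hc
  refine ⟨i1, ?_⟩
  have h := integral_mul_fderiv_eq_neg_fderiv_mul_of_integrable (μ := volume)
    (f := fun _ : E n => (1 : ℂ)) (g := f) (v := v) (by simp) (by simpa using i1)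
    (by simpa using i2) (fun _ _ => differentiableAt_const _)
    (fun y _ => hf.differentiable (by simp) y)
  simpa using h

theorem dzb_int (i : Fin n) (hf : ContDiff ℝ ∞ f) (hc : HasCompactSupport f) :
    Integrable (dzb i f) ∧ ∫ y, dzb i f y = 0 := by
  obtain ⟨a1, a2⟩ := int_NLa hf hc (eb i)
  obtain ⟨b1, b2⟩ := int_NLa hf hc (I • eb i)
  refine ⟨(a1.add (b1.const_mul I)).div_const 2, ?_⟩
  unfold dzb
  rw [integral_div, integral_add a1 (b1.const_mul I), integral_const_mul, a2, b2]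
  simp

theorem dzu_sm (k : Fin n) (hu : ContDiff ℝ ∞ u) : ContDiff ℝ ∞ (dzu k u) :=
  ((ofRealCLM.contDiff.comp (fd_NLa hu _)).sub
    (contDiff_const.mul (ofRealCLM.contDiff.comp (fd_NLa hu _)))).div_const 2

theorem dzu_supp (k : Fin n) (hc : HasCompactSupport u) : HasCompactSupport (dzu k u) :=
  (hc.fderiv ℝ).comp_left (g := fun T : E n →L[ℝ] ℝ =>
    (((T (eb k) : ℝ) : ℂ) - I * ((T (I • eb k) : ℝ) : ℂ)) / 2) (by simp)

theorem dzu_NLa (k : Fin n) (hu : ContDiff ℝ ∞ u) (y v : E n) : fderiv ℝ (dzu k u) y v =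
    (((fderiv ℝ (fderiv ℝ u) y v (eb k) : ℝ) : ℂ) -
      I * ((fderiv ℝ (fderiv ℝ u) y v (I • eb k) : ℝ) : ℂ)) / 2 := by
  have h := (((ofRealCLM.hasFDerivAt.comp y (d2_NLa hu (eb k) y)).fun_sub
    ((ofRealCLM.hasFDerivAt.comp y (d2_NLa hu (I • eb k) y)).const_mul I)).mul_const
    (2 : ℂ)⁻¹).fderiv
  have e : dzu k u = fun y => ((ofRealCLM ∘ fun y => fderiv ℝ u y (eb k)) y -
      I * (ofRealCLM ∘ fun y => fderiv ℝ u y (I • eb k)) y) * (2 : ℂ)⁻¹ :=
    funext fun y => div_eq_mul_inv _ _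
  rw [e, h]
  simp only [_root_.sub_apply, _root_.smul_apply, ContinuousLinearMap.comp_apply,
    ContinuousLinearMap.flip_apply, smul_eq_mul, ofRealCLM_apply]
  ring

theorem LM_eq (hu : ContDiff ℝ ∞ u) (y : E n) (i k : Fin n) :
    LM u y i k = dzb i (dzu k u) y := by
  simp only [LM, hm, dzb, dzu_NLa k hu, Matrix.of_apply]
  push_cast
  linear_combination (((fderiv ℝ (fderiv ℝ u) y (I • eb i) (I • eb k) : ℝ) : ℂ) / 4) * I_mul_I

end Vale.Agent.P272.Ms
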