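import Vale.Agent.P272.F.M.Defs

/-! P272 F/M/Piola (TASK, owner helper8). Definitions in F/M/Defs, F/Defs, Defs, Stmt. Helper names end with `_Piola`.
Pure algebra. `D i 1 = 0` from the product rule; by induction `D i (∏ k ∈ s, f k) = ∑ m ∈ s, D i (f m) * ∏ k ∈ s.erase m, f k`. Expand the right side: the first terms give `Matrix.det_apply` (`Finset.mul_prod_erase`);
for each `m ≠ i0` the sum over `σ` of `sign σ • (g i0 * (D (σ i0) (D (σ m) (g m)) * ∏ k ∈ (univ.erase i0).erase m, D (σ k) (g k)))` vanishes by `Finset.sum_involution` with `σ ↦ σ * Equiv.swap i0 m`. -/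

open Metric Set Filter Topology Complex MeasureTheory Matrix
open scoped ContDiff

set_option linter.unusedSectionVars false

noncomputable section

namespace Vale.Agent.P272.Ms

variable {n : ℕ}

theorem prod_Piola {R ι : Type} [CommRing R] [DecidableEq ι] (d : R → R)
    (hmul : ∀ f g, d (f * g) = d f * g + f * d g) (s : Finset ι) (f : ι → R) :
    d (∏ k ∈ s, f k) = ∑ m ∈ s, d (f m) * ∏ k ∈ s.erase m, f k := by
  induction s using Finset.induction_on with
  | empty =>
    have h := hmul 1 1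
    rw [mul_one, mul_one, one_mul] at h
    simpa using h
  | insert a s ha ih =>
    rw [Finset.prod_insert ha, Finset.sum_insert ha, hmul, ih, Finset.erase_insert ha,
      Finset.mul_sum]
    refine congrArg _ (Finset.sum_congr rfl fun m hm => ?_)
    have h : a ≠ m := fun e => ha (e ▸ hm)
    rw [Finset.erase_insert_of_ne h, Finset.prod_insert fun h' => ha (Finset.mem_of_mem_erase h')]
    ring

theorem inv_Piola {R : Type} [CommRing R] {i0 m : Fin n} (hm : m ≠ i0) (D : Fin n → R → R)
    (hcomm : ∀ i j f, D i (D j f) = D j (D i f)) (g : Fin n → R) :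
    ∑ σ : Equiv.Perm (Fin n), (Equiv.Perm.sign σ : ℤ) • (g i0 * (D (σ i0) (D (σ m) (g m)) *
      ∏ k ∈ (Finset.univ.erase i0).erase m, D (σ k) (g k))) = 0 := by
  refine Finset.sum_involution (fun σ _ => σ * Equiv.swap i0 m) (fun σ _ => ?_) (fun σ _ _ h => ?_)
    (fun _ _ => Finset.mem_univ _) fun σ _ => by rw [mul_assoc, Equiv.swap_mul_self, mul_one]
  · have h1 : ∏ k ∈ (Finset.univ.erase i0).erase m, D ((σ * Equiv.swap i0 m) k) (g k) =
        ∏ k ∈ (Finset.univ.erase i0).erase m, D (σ k) (g k) :=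
      Finset.prod_congr rfl fun k hk => by
        rw [Equiv.Perm.mul_apply, Equiv.swap_apply_of_ne_of_ne
          (Finset.ne_of_mem_erase (Finset.mem_of_mem_erase hk)) (Finset.ne_of_mem_erase hk)]
    rw [h1, Equiv.Perm.sign_mul, Equiv.Perm.sign_swap hm.symm, Equiv.Perm.mul_apply,
      Equiv.Perm.mul_apply, Equiv.swap_apply_left, Equiv.swap_apply_right, hcomm (σ m)]
    simp
  · have h2 := congrArg (fun τ : Equiv.Perm (Fin n) => τ i0) h
    simp only [Equiv.Perm.mul_apply, Equiv.swap_apply_left] at h2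
    exact hm (σ.injective h2)

theorem piola {R : Type} [CommRing R] (i0 : Fin n) (D : Fin n → R → R)
    (hmul : ∀ i f g, D i (f * g) = D i f * g + f * D i g)
    (hcomm : ∀ i j f, D i (D j f) = D j (D i f)) (g : Fin n → R) :
    (Matrix.of fun i k => D i (g k)).det = ∑ σ : Equiv.Perm (Fin n),
      (Equiv.Perm.sign σ : ℤ) • D (σ i0) (g i0 * ∏ k ∈ Finset.univ.erase i0, D (σ k) (g k)) := by
  have h1 : ∀ σ : Equiv.Perm (Fin n), (Equiv.Perm.sign σ : ℤ) •
      D (σ i0) (g i0 * ∏ k ∈ Finset.univ.erase i0, D (σ k) (g k)) =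
      (Equiv.Perm.sign σ : ℤ) • ∏ k, D (σ k) (g k) + ∑ m ∈ Finset.univ.erase i0,
        (Equiv.Perm.sign σ : ℤ) • (g i0 * (D (σ i0) (D (σ m) (g m)) *
          ∏ k ∈ (Finset.univ.erase i0).erase m, D (σ k) (g k))) := fun σ => by
    rw [hmul, prod_Piola (D (σ i0)) (hmul _), smul_add, Finset.mul_sum, Finset.smul_sum,
      Finset.mul_prod_erase Finset.univ (fun k => D (σ k) (g k)) (Finset.mem_univ i0)]
  rw [Finset.sum_congr rfl fun σ _ => h1 σ, Finset.sum_add_distrib, Finset.sum_comm,
    Finset.sum_eq_zero fun m hm => inv_Piola (Finset.ne_of_mem_erase hm) D hcomm g, add_zero,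
    Matrix.det_apply]
  exact Finset.sum_congr rfl fun σ _ => Units.smul_def _ _

end Vale.Agent.P272.Ms
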