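import Vale.Agent.P272.F.M.NLa
import Vale.Agent.P272.F.M.Piola

/-! P272 F/M/NLs (TASK, owner helper8). Definitions in F/M/Defs, F/Defs, Defs, Stmt. Helper names end with `_NLs`.
Let `R` be the subring of the smooth functions `E n → ℂ` (a `Subring (E n → ℂ)` with carrier `{f | ContDiff ℝ ∞ f}`), `D i f = ⟨dzb i f, _⟩`, `g k = ⟨dzu k u, _⟩`. Apply the ring map `(Pi.evalRingHom _ y).comp R.subtype` to `piola` (`RingHom.map_det`, `LM_eq`):
`det (LM u y) = ∑ σ, sign σ • dzb (σ i0) (F σ) y` with `F σ` smooth of compact support (`HasCompactSupport.mul_right`, `dzu_supp`). Then `integral_finset_sum`, `dzb_int`, `integral_re` (`RCLike.re`) or `Complex.reCLM.integral_comp_comm`. -/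

open Metric Set Filter Topology Complex MeasureTheory Matrix
open scoped ContDiff

set_option linter.unusedSectionVars false

noncomputable section

namespace Vale.Agent.P272.Ms

variable {n : ℕ} {u w p : E n → ℝ} {y : E n} {B B' : E n →L[ℝ] E n →L[ℝ] ℝ} {M M' : Mx n}

/-- The ring of smooth functions. -/
def smR_NLs (n : ℕ) : Subring (E n → ℂ) where
  carrier := {f | ContDiff ℝ ∞ f}
  mul_mem' := fun {f g} (hf : ContDiff ℝ ∞ f) (hg : ContDiff ℝ ∞ g) =>
    show ContDiff ℝ ∞ fun x => f x * g x from hf.mul hg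
  one_mem' := show ContDiff ℝ ∞ fun _ : E n => (1 : ℂ) from contDiff_const
  add_mem' := fun {f g} (hf : ContDiff ℝ ∞ f) (hg : ContDiff ℝ ∞ g) =>
    show ContDiff ℝ ∞ fun x => f x + g x from hf.add hg
  zero_mem' := show ContDiff ℝ ∞ fun _ : E n => (0 : ℂ) from contDiff_const
  neg_mem' := fun {f} (hf : ContDiff ℝ ∞ f) => show ContDiff ℝ ∞ fun x => -f x from hf.neg

theorem det_NLs (hu : ContDiff ℝ ∞ u) (hc : HasCompactSupport u) (i0 : Fin n) :
    ∃ F : Equiv.Perm (Fin n) → E n → ℂ, (∀ σ, ContDiff ℝ ∞ (F σ) ∧ HasCompactSupport (F σ)) ∧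
      ∀ y, (LM u y).det = ∑ σ : Equiv.Perm (Fin n),
        (Equiv.Perm.sign σ : ℤ) • dzb (σ i0) (F σ) y := by
  let D : Fin n → smR_NLs n → smR_NLs n := fun i f => ⟨dzb i f.1, dzb_sm i f.2⟩
  let g : Fin n → smR_NLs n := fun k => ⟨dzu k u, dzu_sm k hu⟩
  have hp := piola i0 D (fun i f g => Subtype.ext (dzb_mul i f.2 g.2))
    (fun i j f => Subtype.ext (dzb_comm i j f.2)) g
  refine ⟨fun σ => (g i0 * ∏ k ∈ Finset.univ.erase i0, D (σ k) (g k)).1, fun σ => ⟨?_, ?_⟩,
    fun y => ?_⟩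
  · exact (g i0 * ∏ k ∈ Finset.univ.erase i0, D (σ k) (g k)).2
  · exact HasCompactSupport.mul_right (dzu_supp i0 hc)
  · let φ : smR_NLs n →+* ℂ := (Pi.evalRingHom (fun _ : E n => ℂ) y).comp (smR_NLs n).subtype
    have h1 := congrArg φ hp
    have h2 : φ.mapMatrix (Matrix.of fun i k => D i (g k)) = LM u y := by
      ext i k
      rw [LM_eq hu]
      rfl
    rw [RingHom.map_det, h2, map_sum] at h1
    rw [h1]
    refine Finset.sum_congr rfl fun σ _ => ?_
    rw [map_zsmul]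
    rfl

theorem nl_smooth (hn : 1 ≤ n) (hu : ContDiff ℝ ∞ u) (hc : HasCompactSupport u) :
    ∫ y, dL u y = 0 := by
  obtain ⟨F, hF, hd⟩ := det_NLs hu hc (⟨0, hn⟩ : Fin n)
  have hi : ∀ σ : Equiv.Perm (Fin n),
      Integrable fun y => (Equiv.Perm.sign σ : ℤ) • dzb (σ ⟨0, hn⟩) (F σ) y := fun σ => by
    simp only [zsmul_eq_mul]
    exact (dzb_int _ (hF σ).1 (hF σ).2).1.const_mul _
  have h1 : (fun y => (LM u y).det) = fun y => ∑ σ : Equiv.Perm (Fin n),
      (Equiv.Perm.sign σ : ℤ) • dzb (σ ⟨0, hn⟩) (F σ) y := funext hd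
  have h2 : Integrable fun y => (LM u y).det := by
    rw [h1]; exact integrable_finsetSum _ fun σ _ => hi σ
  have h3 : ∫ y, (LM u y).det = 0 := by
    rw [h1, integral_finsetSum _ fun σ _ => hi σ]
    refine Finset.sum_eq_zero fun σ _ => ?_
    simp only [zsmul_eq_mul]
    rw [integral_const_mul, (dzb_int _ (hF σ).1 (hF σ).2).2, mul_zero]
  have h4 := Complex.reCLM.integral_comp_comm h2
  rw [h3, map_zero] at h4
  exact h4

end Vale.Agent.P272.Ms
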