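import Vale.Agent.P272.F.M.Cmp
import Vale.Agent.P272.F.M.CV
import Vale.Agent.P272.F.M.NL

/-! P272 F/M/Step (TASK, owner helper8). Definitions in F/M/Defs, F/Defs, Defs, Stmt. Helper names end with `_Step`.
`int_part`: `C11.int`; `A.loc (P.χ i) j` is continuous on the ball (`P.sm`, `A.tgt`) with values in `[0, 1]` (`P.nn`, `P.sum`, `Finset.single_le_sum`).
`mass_step`: put `f j y = dL (θ.u j + loc (φ + w) j) y - dL (θ.u j + loc φ j) y`. The difference of the masses is `∑ j, ∫ loc (P.χ j) j * f j` (`integral_sub`, `int_part`, `C11.of_sm`, `C11.add`; `A.loc (fun x => φ x + w x) j y = A.loc φ j y + A.loc w j y` by `rfl`).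
By `cv j k` each term is `∫ loc (P.χ j) k * f k`: if `x` is not in the unit ball of `k` then `¬ A.In k P.r x`, `w = 0` near `x`, so `loc w j = 0` near `A.e j x` (continuity of `symm`), `dL_congr`; `P.supp` for the other side; `dL_cmp` twice.
Sum over `j` (`integral_finset_sum`, `P.sum`), then `nl_loc` with `p = θ.u k + loc φ k` (`add_assoc`). -/

open Metric Set Filter Topology Complex MeasureTheory Matrix
open scoped ContDiff

set_option linter.unusedSectionVars false

noncomputable section

namespace Vale.Agent.P272.Ms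

variable {n : ℕ} {X : Type} [TopologicalSpace X] {A : Atl n X} {φ ψ w : X → ℝ} {j k : Fin A.N}
  {x : X}

theorem tgt_Step (j : Fin A.N) : closedBall (0 : E n) 1 ⊆ (A.e j).target :=
  (closedBall_subset_closedBall (by norm_num)).trans (A.tgt j)

theorem int_part (P : Part A) (i j : Fin A.N) {u : E n → ℝ} (hu : C11 u (ball 0 1)) :
    IntegrableOn (fun y => A.loc (P.χ i) j y * dL u y) (ball 0 1) := by
  refine hu.int ((P.sm i j).continuousOn.mono (ball_subset_closedBall.trans (tgt_Step j)))
    fun y _ => ?_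
  rw [Atl.loc, abs_of_nonneg (P.nn _ _), ← P.sum ((A.e j).symm y)]
  exact Finset.single_le_sum (f := fun l => P.χ l ((A.e j).symm y)) (fun l _ => P.nn l _)
    (Finset.mem_univ i)

theorem loc_Step (φ : X → ℝ) (hj : x ∈ (A.e j).source) : A.loc φ j (A.e j x) = φ x := by
  rw [Atl.loc, (A.e j).left_inv hj]

theorem reg_Step (θ : A.Pot) (hφ : Reg A φ) (j : Fin A.N) :
    C11 (fun y => θ.u j y + A.loc φ j y) (ball 0 1) :=
  (C11.of_sm (A.e j).open_target (tgt_Step j) (θ.sm j)).add (hφ j)

theorem mass_step (hn : 1 ≤ n) (P : Part A) (θ : A.Pot) (hφ : Reg A φ) (hw : Reg A w)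
    (k : Fin A.N) (h0 : ∀ x, ¬ A.In k P.r x → w =ᶠ[𝓝 x] 0) :
    P.mass (fun j y => θ.u j y + A.loc (fun x => φ x + w x) j y) =
      P.mass (fun j y => θ.u j y + A.loc φ j y) := by
  have hs : Reg A fun x => φ x + w x := fun j => (hφ j).add (hw j)
  set f : Fin A.N → E n → ℝ := fun j y =>
    dL (fun y => θ.u j y + A.loc (fun x => φ x + w x) j y) y -
      dL (fun y => θ.u j y + A.loc φ j y) y with hf
  have hint : ∀ i j, IntegrableOn (fun y => A.loc (P.χ i) j y * f j y) (ball 0 1) := by
    intro i j
    have := (int_part P i j (reg_Step θ hs j)).sub (int_part P i j (reg_Step θ hφ j))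
    refine IntegrableOn.congr_fun this (fun y _ => ?_) measurableSet_ball
    exact (mul_sub _ _ _).symm
  have hin : ∀ j x, ¬ (x ∈ (A.e j).source ∧ ‖A.e j x‖ < 1) → ¬ A.In j P.r x :=
    fun j x h h' => h ⟨h'.1, h'.2.trans_lt P.r1⟩
  have hcv : ∀ j, ∫ y in ball (0 : E n) 1, A.loc (P.χ j) j y * f j y =
      ∫ y in ball (0 : E n) 1, A.loc (P.χ j) k y * f k y := by
    intro j
    refine cv j k (fun x hx _ h => ?_) (fun x hx _ h => ?_) fun x hj hk h1 h2 => ?_
    · have e : (fun y => θ.u j y + A.loc (fun x => φ x + w x) j y) =ᶠ[𝓝 (A.e j x)]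
          fun y => θ.u j y + A.loc φ j y := by
        filter_upwards [((A.e j).tendsto_symm hx).eventually (h0 x (hin k x h))] with y hy
        change _ + (φ _ + w _) = _ + φ _
        rw [hy, Pi.zero_apply, add_zero]
      rw [hf]
      dsimp only
      rw [dL_congr e, sub_self, mul_zero]
    · rw [loc_Step _ hx, (P.supp j x (hin j x h)).self_of_nhds, Pi.zero_apply, zero_mul]
    · rw [loc_Step _ hj, loc_Step _ hk, hf]
      dsimp only
      rw [dL_cmp θ hs hj hk h1 h2, dL_cmp θ hφ hj hk h1 h2]
      ring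
  have hz : ∫ y in ball (0 : E n) 1, f k y = 0 := by
    rw [← nl_loc hn P.r1 (reg_Step θ hφ k) (hw k) fun y hy hr => ?_]
    · refine setIntegral_congr_fun measurableSet_ball fun y _ => ?_
      have e : (fun y => θ.u k y + A.loc (fun x => φ x + w x) k y) =
          fun z => θ.u k z + A.loc φ k z + A.loc w k z := funext fun z => (add_assoc _ _ _).symm
      rw [hf]
      dsimp only
      rw [e]
    · refine (h0 _ fun h => ?_).self_of_nhds
      have h2 := h.2
      rw [(A.e k).right_inv (tgt_Step k (ball_subset_closedBall hy))] at h2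
      exact not_le.2 hr h2
  rw [← sub_eq_zero, Part.mass, Part.mass, ← Finset.sum_sub_distrib, ← hz]
  calc _ = ∑ j, ∫ y in ball (0 : E n) 1, A.loc (P.χ j) k y * f k y := by
        refine Finset.sum_congr rfl fun j _ => ?_
        rw [← hcv j, ← integral_sub (int_part P j j (reg_Step θ hs j))
          (int_part P j j (reg_Step θ hφ j))]
        exact setIntegral_congr_fun measurableSet_ball fun y _ => (mul_sub _ _ _).symm
    _ = _ := by
        rw [← integral_finsetSum _ fun j _ => hint j k]
        refine setIntegral_congr_fun measurableSet_ball fun y _ => ?_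
        rw [← Finset.sum_mul]
        change (∑ j, P.χ j ((A.e k).symm y)) * _ = _
        rw [P.sum, one_mul]

end Vale.Agent.P272.Ms
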