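import Vale.Agent.P272.F.M.Alg

/-! P272 F/M/Two (TASK, owner helper8). Definitions in F/M/Defs, F/Defs, Defs, Stmt. Helper names end with `_Two`.
`LM_herm`: if `fderiv u` is differentiable at `y` use `second_derivative_symmetric_of_eventually_of_real`, otherwise the second derivative is zero (`fderiv_zero_of_not_differentiableAt`).
`D2.add`, `snd_add`: `fderiv (u + w) =ᶠ fderiv u + fderiv w` near `y`. `D2.of_add`: `w = (u + w) - u`. `dL_zero`, `dL_bad`: `hm_zero`, `Matrix.det_zero` with `Nonempty (Fin n)`.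
`contOn_snd`: `ContDiffOn.fderiv_of_isOpen`, `ContDiffOn.continuousOn_fderiv_of_isOpen`. -/

open Metric Set Filter Topology Complex MeasureTheory Matrix
open scoped ContDiff

set_option linter.unusedSectionVars false

noncomputable section

namespace Vale.Agent.P272.Ms

variable {n : ℕ} {u w p : E n → ℝ} {y : E n} {B B' : E n →L[ℝ] E n →L[ℝ] ℝ} {M M' : Mx n}

theorem two_le_Two : (2 : WithTop ℕ∞) ≤ ∞ := WithTop.coe_le_coe.2 (le_top : (2 : ℕ∞) ≤ ⊤)

theorem LM_herm (h : ∀ᶠ z in 𝓝 y, DifferentiableAt ℝ u z) : (LM u y).IsHermitian := by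
  apply hm_herm
  intro a b
  by_cases hd : DifferentiableAt ℝ (fderiv ℝ u) y
  · exact second_derivative_symmetric_of_eventually_of_real
      (h.mono fun z hz => hz.hasFDerivAt) hd.hasFDerivAt a b
  · rw [fderiv_zero_of_not_differentiableAt hd]
    rfl

theorem LM_congr (h : u =ᶠ[𝓝 y] w) : LM u y = LM w y := by
  rw [LM, LM, (h.fderiv (𝕜 := ℝ)).fderiv_eq]

theorem dL_congr (h : u =ᶠ[𝓝 y] w) : dL u y = dL w y := by rw [dL, dL, LM_congr h]

theorem levi_congr' (h : u =ᶠ[𝓝 y] w) (a : E n) : levi u y a = levi w y a := by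
  rw [← qm_LM, ← qm_LM, LM_congr h]

theorem dL_zero (hn : 1 ≤ n) (h : u =ᶠ[𝓝 y] 0) : dL u y = 0 := by
  have : Nonempty (Fin n) := ⟨⟨0, hn⟩⟩
  have h0 : fderiv ℝ (fderiv ℝ (0 : E n → ℝ)) y = 0 := by simp
  rw [dL_congr h, dL, LM, h0, hm_zero, Matrix.det_zero]
  rfl

theorem LM_bad (h : ¬ DifferentiableAt ℝ (fderiv ℝ u) y) : LM u y = 0 := by
  rw [LM, fderiv_zero_of_not_differentiableAt h, hm_zero]

theorem D2.of_sm (h : ContDiffAt ℝ ∞ u y) : D2 u y := by
  have h2 : ContDiffAt ℝ 2 u y := h.of_le two_le_Two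
  refine ⟨(h2.eventually (by simp)).mono fun z hz => hz.differentiableAt (by simp), ?_⟩
  exact (h2.fderiv_right (m := 1) (by norm_num)).differentiableAt (by simp)

theorem D2.congr (h : D2 u y) (h' : u =ᶠ[𝓝 y] w) : D2 w y := by
  refine ⟨?_, (h'.fderiv (𝕜 := ℝ)).differentiableAt_iff.1 h.2⟩
  filter_upwards [h.1, h'.eventuallyEq_nhds] with z h1 h2
  exact h2.differentiableAt_iff.1 h1

theorem add_ev_Two (hu : D2 u y) (hw : D2 w y) :
    fderiv ℝ (fun z => u z + w z) =ᶠ[𝓝 y] fun z => fderiv ℝ u z + fderiv ℝ w z :=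
  (hu.1.and hw.1).mono fun _ hz => fderiv_fun_add hz.1 hz.2

theorem cmul_ev_Two (hu : D2 u y) (c : ℝ) :
    fderiv ℝ (fun z => c * u z) =ᶠ[𝓝 y] fun z => c • fderiv ℝ u z :=
  hu.1.mono fun _ hz => fderiv_const_mul hz c

theorem snd_cmul_Two (hu : D2 u y) (c : ℝ) :
    fderiv ℝ (fderiv ℝ fun z => c * u z) y = c • fderiv ℝ (fderiv ℝ u) y := by
  rw [(cmul_ev_Two hu c).fderiv_eq, fderiv_fun_const_smul hu.2]

theorem D2.add (hu : D2 u y) (hw : D2 w y) : D2 (fun z => u z + w z) y := by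
  refine ⟨(hu.1.and hw.1).mono fun z hz => hz.1.add hz.2, ?_⟩
  exact (add_ev_Two hu hw).differentiableAt_iff.2 (hu.2.add hw.2)

theorem D2.cmul (hu : D2 u y) (c : ℝ) : D2 (fun z => c * u z) y := by
  refine ⟨hu.1.mono fun z hz => hz.const_mul c, ?_⟩
  exact (cmul_ev_Two hu c).differentiableAt_iff.2 (hu.2.const_smul c)

theorem D2.of_add (hu : D2 u y) (h : D2 (fun z => u z + w z) y) : D2 w y := by
  refine (h.add (hu.cmul (-1))).congr (Eventually.of_forall fun z => ?_)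
  simp

theorem LM_add (hu : D2 u y) (hw : D2 w y) : LM (fun z => u z + w z) y = LM u y + LM w y := by
  rw [LM, LM, LM, (add_ev_Two hu hw).fderiv_eq, fderiv_fun_add hu.2 hw.2, hm_add]

theorem levi_add2 (hu : D2 u y) (hw : D2 w y) (a : E n) :
    levi (fun z => u z + w z) y a = levi u y a + levi w y a := by
  rw [← qm_LM, LM_add hu hw, qm_add, qm_LM, qm_LM]

theorem levi_cmul (hu : D2 u y) (c : ℝ) (a : E n) :
    levi (fun z => c * u z) y a = c * levi u y a := by
  rw [levi, levi, snd_cmul_Two hu c]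
  simp only [_root_.smul_apply, smul_eq_mul]
  ring

theorem LM_cmul (hu : D2 u y) (c : ℝ) : LM (fun z => c * u z) y = (c : ℂ) • LM u y := by
  rw [LM, LM, snd_cmul_Two hu c]
  ext i k
  simp only [hm, Matrix.of_apply, Matrix.smul_apply, _root_.smul_apply, smul_eq_mul]
  push_cast
  ring

theorem contOn_LM {U : Set (E n)} (hU : IsOpen U) (hu : ContDiffOn ℝ ∞ u U) :
    ContinuousOn (LM u) U := by
  have h1 : ContDiffOn ℝ 1 (fderiv ℝ u) U :=
    hu.fderiv_of_isOpen hU (one_add_one_eq_two.trans_le two_le_Two)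
  exact cont_hm.comp_continuousOn (h1.continuousOn_fderiv_of_isOpen hU le_rfl)

end Vale.Agent.P272.Ms
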